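import Crest.Agent.Helper8.Tensor

/-!
Helper8: the biased composition laws and the fixed-point criterion for S0085.

For a Boolean function `f` on a finite cube, `mean f` is its mean as a sign, `meanPoly f t` the
mean of `f` when its inputs are independent signs of mean `t`, and `meanDeriv f t` the derivative
of that polynomial.  For a block composition `comp f g` (Tensor.lean):
`mean (comp f g) = meanPoly f (mean g)` and `W (comp f g) = meanDeriv f (mean g) * W g`.
-/

set_option autoImplicit false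

namespace Crest.Agent.Helper8

open Finset

lemma abs_sg (b : Bool) : |sg b| = 1 := by cases b <;> simp [sg]

section Mean

variable {ι : Type*} [Fintype ι] [DecidableEq ι]

/-- The mean of `f`, values read as signs. -/
noncomputable def mean (f : (ι → Bool) → Bool) : ℝ := coef f ∅ / (2 : ℝ) ^ Fintype.card ι

/-- The mean of `f` on independent input signs of mean `t`. -/
noncomputable def meanPoly (f : (ι → Bool) → Bool) (t : ℝ) : ℝ :=
  ∑ T : Finset ι, coef f T / (2 : ℝ) ^ Fintype.card ι * t ^ T.card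

/-- The derivative of `meanPoly f`. -/
noncomputable def meanDeriv (f : (ι → Bool) → Bool) (t : ℝ) : ℝ :=
  ∑ T : Finset ι, (T.card : ℝ) * (coef f T / (2 : ℝ) ^ Fintype.card ι) * t ^ (T.card - 1)

lemma abs_coef_le (f : (ι → Bool) → Bool) (S : Finset ι) :
    |coef f S| ≤ (2 : ℝ) ^ Fintype.card ι := by
  unfold coef
  calc |∑ x : ι → Bool, sg (f x) * ∏ i ∈ S, sg (x i)|
      ≤ ∑ x : ι → Bool, |sg (f x) * ∏ i ∈ S, sg (x i)| := Finset.abs_sum_le_sum_abs _ _
    _ = ∑ _x : ι → Bool, (1 : ℝ) := by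
        apply Finset.sum_congr rfl
        intro x _
        rw [abs_mul, Finset.abs_prod, abs_sg]
        simp [abs_sg]
    _ = (2 : ℝ) ^ Fintype.card ι := by
        simp [Finset.card_univ]

lemma abs_mean_le_one (f : (ι → Bool) → Bool) : |mean f| ≤ 1 := by
  unfold mean
  have hpos : (0 : ℝ) < (2 : ℝ) ^ Fintype.card ι := by positivity
  rw [abs_div, abs_of_pos hpos, div_le_one hpos]
  exact abs_coef_le f ∅

end Mean

section CompBiased

variable {α β : Type*} [Fintype α] [DecidableEq α] [Fintype β] [DecidableEq β]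

/-- Normalised form of `coef_comp`. -/
theorem ncoef_comp (f : (α → Bool) → Bool) (g : (β → Bool) → Bool) (S : Finset (α × β)) :
    coef (comp f g) S / (2 : ℝ) ^ (Fintype.card α * Fintype.card β) =
      ∑ T : Finset α, coef f T / (2 : ℝ) ^ Fintype.card α *
        ∏ a, (if a ∈ T then coef g (slice S a) / (2 : ℝ) ^ Fintype.card β
              else (if slice S a = ∅ then (1 : ℝ) else 0)) := by
  have hposα : (0 : ℝ) < (2 : ℝ) ^ Fintype.card α := by positivity
  have hposβ : (0 : ℝ) < (2 : ℝ) ^ Fintype.card β := by positivity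
  have key := coef_comp f g S
  have hprod : ∀ T : Finset α,
      ∏ a, (if a ∈ T then coef g (slice S a)
              else (if slice S a = ∅ then (2 : ℝ) ^ Fintype.card β else 0)) =
      (2 : ℝ) ^ (Fintype.card α * Fintype.card β) *
        ∏ a, (if a ∈ T then coef g (slice S a) / (2 : ℝ) ^ Fintype.card β
              else (if slice S a = ∅ then (1 : ℝ) else 0)) := by
    intro T
    have h1 : (2 : ℝ) ^ (Fintype.card α * Fintype.card β) =
        ∏ _a : α, (2 : ℝ) ^ Fintype.card β := by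
      rw [Finset.prod_const, Finset.card_univ, ← pow_mul, mul_comm]
    rw [h1, ← Finset.prod_mul_distrib]
    apply Finset.prod_congr rfl
    intro a _
    split_ifs with h1 h2
    · field_simp
    · simp
    · simp
  have h2 : coef (comp f g) S = (∑ T : Finset α, coef f T *
        ∏ a, (if a ∈ T then coef g (slice S a)
              else (if slice S a = ∅ then (2 : ℝ) ^ Fintype.card β else 0))) /
        (2 : ℝ) ^ Fintype.card α := by
    rw [← key]; field_simp
  rw [h2, div_div, Finset.sum_div]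
  apply Finset.sum_congr rfl
  intro T _
  rw [hprod T]
  have hposαβ : (0 : ℝ) < (2 : ℝ) ^ (Fintype.card α * Fintype.card β) := by positivity
  field_simp

omit [Fintype α] in
lemma slice_empty (a : α) : slice (∅ : Finset (α × β)) a = ∅ := by simp [slice]

omit [Fintype α] in
lemma slice_singleton (a₀ : α) (b₀ : β) (a : α) :
    slice ({(a₀, b₀)} : Finset (α × β)) a = if a = a₀ then {b₀} else ∅ := by
  ext b
  by_cases h : a = a₀
  · subst h; simp [slice]
  · simp [slice, h]

/-- The mean of a composition. -/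
theorem mean_comp (f : (α → Bool) → Bool) (g : (β → Bool) → Bool) :
    mean (comp f g) = meanPoly f (mean g) := by
  unfold mean meanPoly
  rw [Fintype.card_prod, ncoef_comp]
  apply Finset.sum_congr rfl
  intro T _
  congr 1
  simp only [slice_empty, if_true]
  rw [Fintype.prod_ite_mem, Finset.prod_const]

/-- A level-one coefficient of a composition. -/
theorem ncoef_comp_singleton (f : (α → Bool) → Bool) (g : (β → Bool) → Bool) (a₀ : α) (b₀ : β) :
    coef (comp f g) {(a₀, b₀)} / (2 : ℝ) ^ (Fintype.card α * Fintype.card β) =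
      (∑ T : Finset α, (if a₀ ∈ T then coef f T / (2 : ℝ) ^ Fintype.card α *
          mean g ^ (T.card - 1) else 0)) * (coef g {b₀} / (2 : ℝ) ^ Fintype.card β) := by
  rw [ncoef_comp, Finset.sum_mul]
  apply Finset.sum_congr rfl
  intro T _
  by_cases h0 : a₀ ∈ T
  · rw [if_pos h0]
    have hprod : ∏ a, (if a ∈ T then coef g (slice ({(a₀, b₀)} : Finset (α × β)) a) /
          (2 : ℝ) ^ Fintype.card β
        else (if slice ({(a₀, b₀)} : Finset (α × β)) a = ∅ then (1 : ℝ) else 0)) =
        ∏ a ∈ T, (if a = a₀ then coef g {b₀} / (2 : ℝ) ^ Fintype.card β else mean g) := by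
      rw [← Fintype.prod_ite_mem T]
      apply Finset.prod_congr rfl
      intro a _
      by_cases ha : a ∈ T
      · rw [if_pos ha, if_pos ha, slice_singleton]
        by_cases hE : a = a₀
        · rw [if_pos hE, if_pos hE]
        · rw [if_neg hE, if_neg hE]; rfl
      · have hne : a ≠ a₀ := fun h => ha (h ▸ h0)
        rw [if_neg ha, if_neg ha, slice_singleton, if_neg hne]
        simp
    rw [hprod, ← Finset.mul_prod_erase T _ h0, if_pos rfl]
    have hrest : ∏ a ∈ T.erase a₀, (if a = a₀ then coef g {b₀} / (2 : ℝ) ^ Fintype.card β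
        else mean g) = mean g ^ (T.card - 1) := by
      rw [Finset.prod_congr rfl (g := fun _ => mean g)]
      · rw [Finset.prod_const, Finset.card_erase_of_mem h0]
      · intro a ha
        rw [if_neg (Finset.ne_of_mem_erase ha)]
    rw [hrest]
    ring
  · rw [if_neg h0, zero_mul]
    have : ∏ a, (if a ∈ T then coef g (slice ({(a₀, b₀)} : Finset (α × β)) a) /
          (2 : ℝ) ^ Fintype.card β
        else (if slice ({(a₀, b₀)} : Finset (α × β)) a = ∅ then (1 : ℝ) else 0)) = 0 := by
      apply Finset.prod_eq_zero (Finset.mem_univ a₀)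
      rw [if_neg h0, slice_singleton, if_pos rfl]
      simp
    rw [this, mul_zero]

/-- The level-one sum of a composition: the chain rule. -/
theorem W_comp_biased (f : (α → Bool) → Bool) (g : (β → Bool) → Bool) :
    W (comp f g) = meanDeriv f (mean g) * W g := by
  unfold W
  rw [Fintype.sum_prod_type]
  have h1 : ∀ a : α, ∑ b : β, coef (comp f g) {(a, b)} / (2 : ℝ) ^ Fintype.card (α × β) =
      (∑ T : Finset α, (if a ∈ T then coef f T / (2 : ℝ) ^ Fintype.card α *
          mean g ^ (T.card - 1) else 0)) * ∑ b : β, coef g {b} / (2 : ℝ) ^ Fintype.card β := by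
    intro a
    rw [Finset.mul_sum]
    apply Finset.sum_congr rfl
    intro b _
    rw [Fintype.card_prod]
    exact ncoef_comp_singleton f g a b
  simp_rw [h1]
  rw [← Finset.sum_mul]
  congr 1
  unfold meanDeriv
  rw [Finset.sum_comm]
  apply Finset.sum_congr rfl
  intro T _
  rw [← Finset.sum_filter]
  rw [Finset.sum_const]
  have : (Finset.univ.filter (fun a => a ∈ T)) = T := by
    ext a; simp
  rw [this]
  simp
  ring

end CompBiased

section Iterate

lemma mean_relabel {ι κ : Type*} [Fintype ι] [DecidableEq ι] [Fintype κ] [DecidableEq κ]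
    (e : ι ≃ κ) (f : (ι → Bool) → Bool) : mean (relabel e f) = mean f := by
  unfold mean
  rw [coef_relabel, Finset.map_empty, Fintype.card_congr e]

/-- Iterating a fixed outer function `f` over a seed `h`. -/
theorem iterate_outer (m : ℕ) (f : (Fin m → Bool) → Bool) (d : ℕ)
    (hdeg : ∀ S : Finset (Fin m), d < S.card → coef f S = 0)
    (n₀ : ℕ) (h : (Fin n₀ → Bool) → Bool) (d₀ : ℕ)
    (hdeg₀ : ∀ S : Finset (Fin n₀), d₀ < S.card → coef h S = 0) (k : ℕ) :
    ∃ (n : ℕ) (F : (Fin n → Bool) → Bool),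
      mean F = (meanPoly f)^[k] (mean h) ∧
      W F = W h * ∏ i ∈ Finset.range k, meanDeriv f ((meanPoly f)^[i] (mean h)) ∧
      (∀ S : Finset (Fin n), d ^ k * d₀ < S.card → coef F S = 0) := by
  induction k with
  | zero => exact ⟨n₀, h, rfl, by simp, by simpa using hdeg₀⟩
  | succ k ih =>
    obtain ⟨n, F, hm, hw, hd⟩ := ih
    refine ⟨m * n, relabel finProdFinEquiv (comp f F), ?_, ?_, ?_⟩
    · rw [mean_relabel, mean_comp, hm, Function.iterate_succ_apply']
    · rw [W_relabel, W_comp_biased, hw, hm, Finset.prod_range_succ]; ring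
    · intro S hS
      rw [coef_relabel]
      apply degLE_comp f F d (d ^ k * d₀) hdeg hd
      rw [Finset.card_map]
      calc d * (d ^ k * d₀) = d ^ (k + 1) * d₀ := by ring
        _ < S.card := hS

end Iterate

section Seed

/-- The cube on `n + 1` coordinates as a product. -/
def consE (n : ℕ) : Bool × (Fin n → Bool) ≃ (Fin (n + 1) → Bool) where
  toFun p := Fin.cons p.1 p.2
  invFun y := (y 0, Fin.tail y)
  left_inv p := by simp
  right_inv y := by simp

lemma sum_cons {n : ℕ} (G : (Fin (n + 1) → Bool) → ℝ) :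
    ∑ y, G y = ∑ x : Fin n → Bool, (G (Fin.cons true x) + G (Fin.cons false x)) := by
  rw [← (consE n).sum_comp G, Fintype.sum_prod_type, Fintype.sum_bool, ← Finset.sum_add_distrib]
  rfl

lemma sum_one_cube (n : ℕ) : ∑ _x : Fin n → Bool, (1 : ℝ) = (2 : ℝ) ^ n := by
  simp [Finset.card_univ]

lemma sum_sg_coord {n : ℕ} (i : Fin n) : ∑ x : Fin n → Bool, sg (x i) = 0 := by
  have h := sum_chi ({i} : Finset (Fin n))
  simpa using h

lemma coef_empty_eq {n : ℕ} (h : (Fin n → Bool) → Bool) :
    coef h ∅ = ∑ x : Fin n → Bool, sg (h x) := by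
  simp [coef]

lemma coef_single_eq {n : ℕ} (h : (Fin n → Bool) → Bool) (i : Fin n) :
    coef h {i} = ∑ x : Fin n → Bool, sg (h x) * sg (x i) := by
  simp [coef]

/-- `y₀ ∨ h (tail y)`. -/
def orExt {n : ℕ} (h : (Fin n → Bool) → Bool) : (Fin (n + 1) → Bool) → Bool :=
  fun y => y 0 || h (Fin.tail y)

/-- `y₀ ∧ h (tail y)`. -/
def andExt {n : ℕ} (h : (Fin n → Bool) → Bool) : (Fin (n + 1) → Bool) → Bool :=
  fun y => y 0 && h (Fin.tail y)

lemma coef_orExt_empty {n : ℕ} (h : (Fin n → Bool) → Bool) :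
    coef (orExt h) ∅ = (2 : ℝ) ^ n + coef h ∅ := by
  rw [coef_empty_eq, coef_empty_eq, sum_cons, ← sum_one_cube, ← Finset.sum_add_distrib]
  apply Finset.sum_congr rfl
  intro x _
  simp [orExt, sg]

lemma coef_orExt_zero {n : ℕ} (h : (Fin n → Bool) → Bool) :
    coef (orExt h) {0} = (2 : ℝ) ^ n - coef h ∅ := by
  rw [coef_single_eq, coef_empty_eq, sum_cons, ← sum_one_cube, ← Finset.sum_sub_distrib]
  apply Finset.sum_congr rfl
  intro x _
  simp [orExt, sg]
  ring

lemma coef_orExt_succ {n : ℕ} (h : (Fin n → Bool) → Bool) (i : Fin n) :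
    coef (orExt h) {i.succ} = coef h {i} := by
  rw [coef_single_eq, coef_single_eq, sum_cons]
  have : ∀ x : Fin n → Bool,
      sg (orExt h (Fin.cons true x)) * sg ((Fin.cons true x : Fin (n + 1) → Bool) i.succ) +
        sg (orExt h (Fin.cons false x)) * sg ((Fin.cons false x : Fin (n + 1) → Bool) i.succ) =
      sg (x i) + sg (h x) * sg (x i) := by
    intro x
    simp [orExt, sg]
  simp_rw [this]
  rw [Finset.sum_add_distrib, sum_sg_coord, zero_add]

lemma coef_andExt_empty {n : ℕ} (h : (Fin n → Bool) → Bool) :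
    coef (andExt h) ∅ = coef h ∅ - (2 : ℝ) ^ n := by
  rw [coef_empty_eq, coef_empty_eq, sum_cons, ← sum_one_cube, ← Finset.sum_sub_distrib]
  apply Finset.sum_congr rfl
  intro x _
  simp [andExt, sg]
  ring

lemma coef_andExt_zero {n : ℕ} (h : (Fin n → Bool) → Bool) :
    coef (andExt h) {0} = coef h ∅ + (2 : ℝ) ^ n := by
  rw [coef_single_eq, coef_empty_eq, sum_cons, ← sum_one_cube, ← Finset.sum_add_distrib]
  apply Finset.sum_congr rfl
  intro x _
  simp [andExt, sg]

lemma coef_andExt_succ {n : ℕ} (h : (Fin n → Bool) → Bool) (i : Fin n) :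
    coef (andExt h) {i.succ} = coef h {i} := by
  rw [coef_single_eq, coef_single_eq, sum_cons]
  have : ∀ x : Fin n → Bool,
      sg (andExt h (Fin.cons true x)) * sg ((Fin.cons true x : Fin (n + 1) → Bool) i.succ) +
        sg (andExt h (Fin.cons false x)) * sg ((Fin.cons false x : Fin (n + 1) → Bool) i.succ) =
      sg (h x) * sg (x i) - sg (x i) := by
    intro x
    cases hx : x i <;> cases hh : h x <;> simp [andExt, sg, hx, hh]
    norm_num
  simp_rw [this]
  rw [Finset.sum_sub_distrib, sum_sg_coord, sub_zero]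

lemma mean_orExt {n : ℕ} (h : (Fin n → Bool) → Bool) : mean (orExt h) = (1 + mean h) / 2 := by
  unfold mean
  rw [coef_orExt_empty, Fintype.card_fin, Fintype.card_fin, pow_succ]
  have : (0 : ℝ) < (2 : ℝ) ^ n := by positivity
  field_simp

lemma mean_andExt {n : ℕ} (h : (Fin n → Bool) → Bool) : mean (andExt h) = (mean h - 1) / 2 := by
  unfold mean
  rw [coef_andExt_empty, Fintype.card_fin, Fintype.card_fin, pow_succ]
  have : (0 : ℝ) < (2 : ℝ) ^ n := by positivity
  field_simp

lemma W_orExt {n : ℕ} (h : (Fin n → Bool) → Bool) :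
    W (orExt h) = (1 - mean h) / 2 + W h / 2 := by
  unfold W mean
  rw [Fin.sum_univ_succ, coef_orExt_zero]
  simp_rw [coef_orExt_succ]
  rw [Fintype.card_fin, Fintype.card_fin, pow_succ, ← Finset.sum_div]
  have : (0 : ℝ) < (2 : ℝ) ^ n := by positivity
  rw [← Finset.sum_div]
  field_simp

lemma W_andExt {n : ℕ} (h : (Fin n → Bool) → Bool) :
    W (andExt h) = (1 + mean h) / 2 + W h / 2 := by
  unfold W mean
  rw [Fin.sum_univ_succ, coef_andExt_zero]
  simp_rw [coef_andExt_succ]
  rw [Fintype.card_fin, Fintype.card_fin, pow_succ, ← Finset.sum_div]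
  have : (0 : ℝ) < (2 : ℝ) ^ n := by positivity
  rw [← Finset.sum_div]
  field_simp
  ring

/-- Decision lists reach every mean in `[-1, 1]` up to `2 / 2 ^ j` and keep a level-one sum of
at least `1 - |mean|`. -/
theorem seed (j : ℕ) : ∀ t : ℝ, |t| ≤ 1 →
    ∃ h : (Fin j → Bool) → Bool, |mean h - t| ≤ 2 / 2 ^ j ∧ 0 ≤ W h ∧ 1 - |mean h| ≤ W h := by
  induction j with
  | zero =>
    intro t ht
    refine ⟨fun _ => false, ?_, ?_, ?_⟩
    · have hm : mean (fun _ : Fin 0 → Bool => false) = -1 := by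
        simp [mean, coef, sg]
      rw [hm]
      have := abs_le.mp ht
      rw [abs_le]
      constructor <;> norm_num <;> linarith
    · rw [W_eq_zero_of_const _ (fun _ _ => rfl)]
    · have hm : mean (fun _ : Fin 0 → Bool => false) = -1 := by
        simp [mean, coef, sg]
      rw [hm, W_eq_zero_of_const _ (fun _ _ => rfl)]
      norm_num
  | succ j ih =>
    intro t ht
    have ht' := abs_le.mp ht
    by_cases h0 : 0 ≤ t
    · obtain ⟨h, h1, h2, h3⟩ := ih (2 * t - 1) (by rw [abs_le]; constructor <;> linarith)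
      have hμ := abs_le.mp (abs_mean_le_one h)
      refine ⟨orExt h, ?_, ?_, ?_⟩
      · rw [mean_orExt]
        have : (1 + mean h) / 2 - t = (mean h - (2 * t - 1)) / 2 := by ring
        rw [this, abs_div, abs_of_pos (by norm_num : (0 : ℝ) < 2), pow_succ]
        have h2pos : (0 : ℝ) < (2 : ℝ) ^ j := by positivity
        rw [div_le_iff₀ (by norm_num : (0 : ℝ) < 2)]
        calc |mean h - (2 * t - 1)| ≤ 2 / 2 ^ j := h1
          _ = 2 / (2 ^ j * 2) * 2 := by field_simp
      · rw [W_orExt]; linarith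
      · rw [W_orExt, mean_orExt, abs_of_nonneg (by linarith)]
        linarith
    · rw [not_le] at h0
      obtain ⟨h, h1, h2, h3⟩ := ih (2 * t + 1) (by rw [abs_le]; constructor <;> linarith)
      have hμ := abs_le.mp (abs_mean_le_one h)
      refine ⟨andExt h, ?_, ?_, ?_⟩
      · rw [mean_andExt]
        have : (mean h - 1) / 2 - t = (mean h - (2 * t + 1)) / 2 := by ring
        rw [this, abs_div, abs_of_pos (by norm_num : (0 : ℝ) < 2), pow_succ]
        have h2pos : (0 : ℝ) < (2 : ℝ) ^ j := by positivity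
        rw [div_le_iff₀ (by norm_num : (0 : ℝ) < 2)]
        calc |mean h - (2 * t + 1)| ≤ 2 / 2 ^ j := h1
          _ = 2 / (2 ^ j * 2) * 2 := by field_simp
      · rw [W_andExt]; linarith
      · rw [W_andExt, mean_andExt, abs_of_nonpos (by linarith)]
        linarith

end Seed

section Negation

variable {ι : Type*} [Fintype ι] [DecidableEq ι]

/-- Pointwise negation. -/
def bneg (F : (ι → Bool) → Bool) : (ι → Bool) → Bool := fun x => !F x

lemma sg_not (b : Bool) : sg (!b) = -sg b := by cases b <;> simp [sg]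

lemma coef_bneg (F : (ι → Bool) → Bool) (S : Finset ι) : coef (bneg F) S = -coef F S := by
  unfold coef bneg
  simp_rw [sg_not, neg_mul]
  rw [Finset.sum_neg_distrib]

lemma W_bneg (F : (ι → Bool) → Bool) : W (bneg F) = -W F := by
  unfold W
  simp_rw [coef_bneg, neg_div]
  rw [Finset.sum_neg_distrib]

lemma mean_bneg (F : (ι → Bool) → Bool) : mean (bneg F) = -mean F := by
  unfold mean
  rw [coef_bneg, neg_div]

lemma meanPoly_bneg (F : (ι → Bool) → Bool) (t : ℝ) : meanPoly (bneg F) t = -meanPoly F t := by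
  unfold meanPoly
  simp_rw [coef_bneg, neg_div, neg_mul]
  rw [Finset.sum_neg_distrib]

lemma meanDeriv_bneg (F : (ι → Bool) → Bool) (t : ℝ) :
    meanDeriv (bneg F) t = -meanDeriv F t := by
  unfold meanDeriv
  simp_rw [coef_bneg, neg_div, mul_neg, neg_mul]
  rw [Finset.sum_neg_distrib]

end Negation

section Final

/-- The S0085 conclusion from a function with a large level-one sum, in the statement's form. -/
theorem conclusion_of_pos (n : ℕ) (F : (Fin n → Bool) → Bool) (d' : ℕ) (C : ℝ)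
    (hdeg : ∀ S : Finset (Fin n), d' < S.card → coef F S = 0)
    (hpos : 0 < W F) (hW : C * Real.sqrt d' < W F) :
    ∃ n : ℕ, ∃ f : (Fin n → Bool) → Bool, ∃ d : ℕ,
      (∃ x y, f x ≠ f y) ∧
      (∀ S : Finset (Fin n), d < S.card →
        ∑ x : Fin n → Bool, ((if f x then (1 : ℝ) else -1) *
          ∏ i ∈ S, (if x i then (1 : ℝ) else -1)) = 0) ∧
      C * Real.sqrt d <
        ∑ i : Fin n, (∑ x : Fin n → Bool, ((if f x then (1 : ℝ) else -1) *
          (if x i then (1 : ℝ) else -1))) / 2 ^ n := by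
  refine ⟨n, F, d', ?_, ?_, ?_⟩
  · by_contra hcon
    have hconst : ∀ x y, F x = F y := by
      intro x y
      by_contra hne
      exact hcon ⟨x, y, hne⟩
    have := W_eq_zero_of_const F hconst
    linarith
  · intro S hS
    exact hdeg S hS
  · have hWform : ∑ i : Fin n, (∑ x : Fin n → Bool,
        ((if F x then (1 : ℝ) else -1) * (if x i then (1 : ℝ) else -1))) / 2 ^ n = W F := by
      unfold W coef
      simp only [Finset.prod_singleton, Fintype.card_fin]
      rfl
    rw [hWform]
    exact hW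

theorem conclusion_of_abs (n : ℕ) (F : (Fin n → Bool) → Bool) (d' : ℕ) (C : ℝ)
    (hdeg : ∀ S : Finset (Fin n), d' < S.card → coef F S = 0)
    (hpos : 0 < |W F|) (hW : C * Real.sqrt d' < |W F|) :
    ∃ n : ℕ, ∃ f : (Fin n → Bool) → Bool, ∃ d : ℕ,
      (∃ x y, f x ≠ f y) ∧
      (∀ S : Finset (Fin n), d < S.card →
        ∑ x : Fin n → Bool, ((if f x then (1 : ℝ) else -1) *
          ∏ i ∈ S, (if x i then (1 : ℝ) else -1)) = 0) ∧
      C * Real.sqrt d <
        ∑ i : Fin n, (∑ x : Fin n → Bool, ((if f x then (1 : ℝ) else -1) *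
          (if x i then (1 : ℝ) else -1))) / 2 ^ n := by
  by_cases h0 : 0 ≤ W F
  · rw [abs_of_nonneg h0] at hpos hW
    exact conclusion_of_pos n F d' C hdeg hpos hW
  · rw [not_le] at h0
    rw [abs_of_neg h0] at hpos hW
    apply conclusion_of_pos n (bneg F) d' C
    · intro S hS
      rw [coef_bneg, hdeg S hS, neg_zero]
    · rw [W_bneg]; exact hpos
    · rw [W_bneg]; exact hW

/-- A Lipschitz constant of `meanPoly f` on `[-1, 1]`. -/
noncomputable def lipConst {m : ℕ} (f : (Fin m → Bool) → Bool) : ℝ :=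
  ∑ T : Finset (Fin m), (T.card : ℝ) * |coef f T / (2 : ℝ) ^ Fintype.card (Fin m)|

lemma lipConst_nonneg {m : ℕ} (f : (Fin m → Bool) → Bool) : 0 ≤ lipConst f :=
  Finset.sum_nonneg (fun T _ => by positivity)

lemma meanPoly_lip {m : ℕ} (f : (Fin m → Bool) → Bool) (s t : ℝ) (hs : |s| ≤ 1) (ht : |t| ≤ 1) :
    |meanPoly f s - meanPoly f t| ≤ lipConst f * |s - t| := by
  unfold meanPoly lipConst
  rw [← Finset.sum_sub_distrib, Finset.sum_mul]
  refine (Finset.abs_sum_le_sum_abs _ _).trans (Finset.sum_le_sum ?_)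
  intro T _
  rw [← mul_sub, abs_mul]
  have h1 : |s ^ T.card - t ^ T.card| ≤ |s - t| * T.card * max |s| |t| ^ (T.card - 1) :=
    abs_pow_sub_pow_le s t T.card
  have h2 : max |s| |t| ^ (T.card - 1) ≤ 1 :=
    pow_le_one₀ (le_max_of_le_left (abs_nonneg s)) (max_le hs ht)
  have h3 : |s ^ T.card - t ^ T.card| ≤ (T.card : ℝ) * |s - t| := by
    have h4 : |s - t| * T.card * max |s| |t| ^ (T.card - 1) ≤ |s - t| * T.card * 1 := by
      apply mul_le_mul_of_nonneg_left h2
      positivity
    linarith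
  calc |coef f T / (2 : ℝ) ^ Fintype.card (Fin m)| * |s ^ T.card - t ^ T.card|
      ≤ |coef f T / (2 : ℝ) ^ Fintype.card (Fin m)| * ((T.card : ℝ) * |s - t|) :=
        mul_le_mul_of_nonneg_left h3 (abs_nonneg _)
    _ = (T.card : ℝ) * |coef f T / (2 : ℝ) ^ Fintype.card (Fin m)| * |s - t| := by ring

lemma orbit_close {m : ℕ} (f : (Fin m → Bool) → Bool) (t μ : ℝ) (ht : |t| ≤ 1)
    (hfix : meanPoly f t = t) (L : ℝ) (hL : lipConst f ≤ L) (k : ℕ)
    (hbound : ∀ i ≤ k, |(meanPoly f)^[i] μ| ≤ 1) :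
    ∀ i ≤ k, |(meanPoly f)^[i] μ - t| ≤ L ^ i * |μ - t| := by
  intro i
  induction i with
  | zero => intro _; simp
  | succ i ih =>
    intro hi
    have hprev := ih (by omega)
    have hL0 : 0 ≤ L := (lipConst_nonneg f).trans hL
    rw [Function.iterate_succ_apply']
    calc |meanPoly f ((meanPoly f)^[i] μ) - t|
        = |meanPoly f ((meanPoly f)^[i] μ) - meanPoly f t| := by rw [hfix]
      _ ≤ lipConst f * |(meanPoly f)^[i] μ - t| :=
          meanPoly_lip f _ _ (hbound i (by omega)) ht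
      _ ≤ L * (L ^ i * |μ - t|) :=
          mul_le_mul hL hprev (abs_nonneg _) hL0
      _ = L ^ (i + 1) * |μ - t| := by ring

/-- Exponential growth beats the square root of a linear function. -/
lemma exists_growth (r w₀ C : ℝ) (hr : 1 < r) (hw : 0 < w₀) (a b : ℕ) :
    ∃ k : ℕ, C * Real.sqrt ((a * k + b : ℕ) : ℝ) < w₀ * r ^ k := by
  by_cases hC : C ≤ 0
  · refine ⟨0, ?_⟩
    have h1 : C * Real.sqrt ((a * 0 + b : ℕ) : ℝ) ≤ 0 :=
      mul_nonpos_of_nonpos_of_nonneg hC (Real.sqrt_nonneg _)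
    have h2 : 0 < w₀ * r ^ 0 := by simpa using hw
    linarith
  · rw [not_le] at hC
    have h1 := tendsto_pow_const_div_const_pow_of_one_lt 1 hr
    have h0 := tendsto_pow_const_div_const_pow_of_one_lt 0 hr
    have h := (h1.const_mul (a : ℝ)).add (h0.const_mul ((b : ℝ) + 1))
    have hlim : (a : ℝ) * 0 + ((b : ℝ) + 1) * 0 < w₀ / C := by
      have : 0 < w₀ / C := div_pos hw hC
      simpa using this
    obtain ⟨k, hk⟩ := (h.eventually (gt_mem_nhds hlim)).exists
    refine ⟨k, ?_⟩
    have hrk : 0 < r ^ k := by positivity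
    have hk' : ((a : ℝ) * k + b + 1) / r ^ k < w₀ / C := by
      have e : (a : ℝ) * ((k : ℝ) ^ 1 / r ^ k) + ((b : ℝ) + 1) * ((k : ℝ) ^ 0 / r ^ k) =
          ((a : ℝ) * k + b + 1) / r ^ k := by
        field_simp
        ring
      rw [← e]; exact hk
    rw [div_lt_div_iff₀ hrk hC] at hk'
    have hsq : Real.sqrt ((a * k + b : ℕ) : ℝ) ≤ (a : ℝ) * k + b + 1 := by
      rw [Real.sqrt_le_iff]
      push_cast
      have hx : (0 : ℝ) ≤ (a : ℝ) * k + b := by positivity
      constructor
      · linarith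
      · nlinarith
    calc C * Real.sqrt ((a * k + b : ℕ) : ℝ) ≤ C * ((a : ℝ) * k + b + 1) :=
          mul_le_mul_of_nonneg_left hsq hC.le
      _ < w₀ * r ^ k := by linarith

/-- **Biased fixed-point criterion.**  If the mean polynomial of `g` (degree bound `d ≥ 1`) has a
fixed point `t ∈ (-1, 1)` near which its derivative is at least `lam` in absolute value, with
`lam ^ 2 > d`, then the S0085 conclusion holds for every `C`. -/
theorem unbounded_of_fixed_point (m : ℕ) (g : (Fin m → Bool) → Bool) (d : ℕ) (hd : 1 ≤ d)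
    (hdeg : ∀ S : Finset (Fin m), d < S.card → coef g S = 0)
    (t δ lam : ℝ) (ht : |t| < 1) (hfix : meanPoly g t = t) (hδ : 0 < δ)
    (hlam : ∀ s : ℝ, |s - t| ≤ δ → lam ≤ |meanDeriv g s|)
    (hlam0 : 0 < lam) (hlam2 : (d : ℝ) < lam ^ 2) (C : ℝ) :
    ∃ n : ℕ, ∃ f : (Fin n → Bool) → Bool, ∃ d : ℕ,
      (∃ x y, f x ≠ f y) ∧
      (∀ S : Finset (Fin n), d < S.card →
        ∑ x : Fin n → Bool, ((if f x then (1 : ℝ) else -1) *
          ∏ i ∈ S, (if x i then (1 : ℝ) else -1)) = 0) ∧
      C * Real.sqrt d <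
        ∑ i : Fin n, (∑ x : Fin n → Bool, ((if f x then (1 : ℝ) else -1) *
          (if x i then (1 : ℝ) else -1))) / 2 ^ n := by
  -- constants
  set L : ℝ := max 1 (lipConst g) with hLdef
  have hL1 : 1 ≤ L := le_max_left _ _
  have hLlip : lipConst g ≤ L := le_max_right _ _
  set w₀ : ℝ := (1 - |t|) / 2 with hw₀def
  have hw₀ : 0 < w₀ := by rw [hw₀def]; linarith
  set δ' : ℝ := min δ w₀ with hδ'def
  have hδ' : 0 < δ' := lt_min hδ hw₀
  obtain ⟨a, ha⟩ := pow_unbounded_of_one_lt L (one_lt_two : (1 : ℝ) < 2)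
  obtain ⟨b, hb⟩ := pow_unbounded_of_one_lt (2 / δ') (one_lt_two : (1 : ℝ) < 2)
  have hd' : (0 : ℝ) < (d : ℝ) := by exact_mod_cast hd
  have hsq : 0 < Real.sqrt d := Real.sqrt_pos.mpr hd'
  have hlt : Real.sqrt d < lam := (Real.sqrt_lt' hlam0).mpr hlam2
  have hr : 1 < lam / Real.sqrt d := (one_lt_div hsq).mpr hlt
  obtain ⟨k, hk⟩ := exists_growth (lam / Real.sqrt d) w₀ C hr hw₀ a b
  -- the seed
  set j : ℕ := a * k + b with hjdef
  obtain ⟨h, hh1, hh2, hh3⟩ := seed j t ht.le
  have hLk : 0 < L ^ k := by positivity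
  have hprec : 2 / (2 : ℝ) ^ j ≤ δ' / L ^ k := by
    have h2j : (2 : ℝ) ^ j = ((2 : ℝ) ^ a) ^ k * 2 ^ b := by
      rw [hjdef, pow_add, pow_mul]
    have h2a : L ^ k ≤ ((2 : ℝ) ^ a) ^ k := pow_le_pow_left₀ (by linarith) ha.le k
    have h2pos : (0 : ℝ) < (2 : ℝ) ^ j := by positivity
    rw [div_le_div_iff₀ h2pos hLk, h2j]
    have hb' : 2 ≤ δ' * (2 : ℝ) ^ b := by
      have := hb.le
      rw [div_le_iff₀ hδ'] at this
      linarith
    calc 2 * L ^ k ≤ (δ' * (2 : ℝ) ^ b) * ((2 : ℝ) ^ a) ^ k :=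
          mul_le_mul hb' h2a hLk.le (by positivity)
      _ = δ' * (((2 : ℝ) ^ a) ^ k * 2 ^ b) := by ring
  have hclose : |mean h - t| ≤ δ' / L ^ k := hh1.trans hprec
  have hLk1 : 1 ≤ L ^ k := one_le_pow₀ hL1
  have hclose' : |mean h - t| ≤ δ' := by
    refine hclose.trans ?_
    rw [div_le_iff₀ hLk]
    nlinarith
  have hWh : w₀ ≤ W h := by
    have h1 : |mean h| ≤ |t| + δ' := by
      have := abs_sub_abs_le_abs_sub (mean h) t
      linarith
    have h2 : δ' ≤ w₀ := min_le_right _ _
    have : 1 - |mean h| ≥ w₀ := by rw [hw₀def] at h2 ⊢; linarith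
    linarith
  have hdeg₀ : ∀ S : Finset (Fin j), j < S.card → coef h S = 0 := by
    intro S hS
    have := Finset.card_le_univ S
    rw [Fintype.card_fin] at this
    omega
  -- the orbit
  have hbound : ∀ i ≤ k, |(meanPoly g)^[i] (mean h)| ≤ 1 := by
    intro i _
    obtain ⟨n, F, hm, _, _⟩ := iterate_outer m g d hdeg j h j hdeg₀ i
    rw [← hm]; exact abs_mean_le_one F
  have horb := orbit_close g t (mean h) ht.le hfix L hLlip k hbound
  have hderiv : ∀ i ∈ Finset.range k, lam ≤ |meanDeriv g ((meanPoly g)^[i] (mean h))| := by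
    intro i hi
    have hik : i < k := Finset.mem_range.mp hi
    apply hlam
    have h1 := horb i hik.le
    have h2 : L ^ i ≤ L ^ k := pow_le_pow_right₀ hL1 hik.le
    have h3 : L ^ i * |mean h - t| ≤ L ^ k * (δ' / L ^ k) :=
      mul_le_mul h2 hclose (abs_nonneg _) hLk.le
    have h4 : L ^ k * (δ' / L ^ k) = δ' := by field_simp
    have h5 : δ' ≤ δ := min_le_left _ _
    linarith
  obtain ⟨n, F, hm, hw, hdF⟩ := iterate_outer m g d hdeg j h j hdeg₀ k
  have hprod : lam ^ k ≤ |∏ i ∈ Finset.range k, meanDeriv g ((meanPoly g)^[i] (mean h))| := by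
    rw [Finset.abs_prod]
    calc lam ^ k = ∏ _i ∈ Finset.range k, lam := by
          rw [Finset.prod_const, Finset.card_range]
      _ ≤ ∏ i ∈ Finset.range k, |meanDeriv g ((meanPoly g)^[i] (mean h))| :=
          Finset.prod_le_prod (fun i _ => hlam0.le) hderiv
  have hWF : w₀ * lam ^ k ≤ |W F| := by
    rw [hw, abs_mul, abs_of_nonneg hh2]
    exact mul_le_mul hWh hprod (by positivity) hh2
  have hlamk : 0 < lam ^ k := by positivity
  apply conclusion_of_abs n F (d ^ k * j) C hdF
  · exact lt_of_lt_of_le (mul_pos hw₀ hlamk) hWF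
  · have e1 : Real.sqrt ((d : ℝ) ^ k) = Real.sqrt d ^ k := by
      have : (d : ℝ) ^ k = (Real.sqrt d ^ k) ^ 2 := by
        rw [← pow_mul, mul_comm, pow_mul, Real.sq_sqrt hd'.le]
      rw [this, Real.sqrt_sq (by positivity)]
    have hsqrt : Real.sqrt ((d ^ k * j : ℕ) : ℝ) = Real.sqrt d ^ k * Real.sqrt (j : ℝ) := by
      push_cast
      rw [Real.sqrt_mul (by positivity), e1]
    rw [hsqrt]
    have hpos : 0 < Real.sqrt d ^ k := by positivity
    have h1 : C * Real.sqrt (j : ℝ) * Real.sqrt d ^ k <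
        w₀ * (lam / Real.sqrt d) ^ k * Real.sqrt d ^ k :=
      mul_lt_mul_of_pos_right hk hpos
    have h2 : w₀ * (lam / Real.sqrt d) ^ k * Real.sqrt d ^ k = w₀ * lam ^ k := by
      rw [div_pow, mul_assoc, div_mul_cancel₀ _ hpos.ne']
    calc C * (Real.sqrt d ^ k * Real.sqrt (j : ℝ)) = C * Real.sqrt (j : ℝ) * Real.sqrt d ^ k := by
          ring
      _ < w₀ * lam ^ k := by rw [← h2]; exact h1
      _ ≤ |W F| := hWF

end Final

end Crest.Agent.Helper8
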