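import Crest.Agent.Helper8.Tensor

/-!
Helper8: Boolean functions presented as a disjoint union of subcubes, and their Fourier–Walsh
coefficients (base-case interface for the tensor-power reduction of S0085).
-/

set_option autoImplicit false

namespace Crest.Agent.Helper8

open Finset

section CubeList

variable {ι : Type*} [Fintype ι] [DecidableEq ι]

/-- `x` lies in the subcube `Q = (P, M)`: coordinates in `P` are true, those in `M` are false. -/
def inCube (Q : Finset ι × Finset ι) (x : ι → Bool) : Prop :=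
  (∀ i ∈ Q.1, x i = true) ∧ (∀ i ∈ Q.2, x i = false)

instance (Q : Finset ι × Finset ι) (x : ι → Bool) : Decidable (inCube Q x) := by
  unfold inCube; infer_instance

/-- The per-coordinate factor of the indicator of a subcube. -/
noncomputable def cubeFactor (Q : Finset ι × Finset ι) (i : ι) (b : Bool) : ℝ :=
  (if i ∈ Q.1 then (if b then 1 else 0) else 1) * (if i ∈ Q.2 then (if b then 0 else 1) else 1)

lemma ind_eq_prod (Q : Finset ι × Finset ι) (x : ι → Bool) :
    (if inCube Q x then (1 : ℝ) else 0) = ∏ i, cubeFactor Q i (x i) := by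
  split_ifs with h
  · symm
    apply Finset.prod_eq_one
    intro i _
    unfold cubeFactor
    by_cases h1 : i ∈ Q.1 <;> by_cases h2 : i ∈ Q.2
    · have a := h.1 i h1
      have b := h.2 i h2
      rw [a] at b
      exact absurd b (by simp)
    · simp [h1, h2, h.1 i h1]
    · simp [h1, h2, h.2 i h2]
    · simp [h1, h2]
  · symm
    unfold inCube at h
    rw [not_and_or] at h
    rcases h with h | h
    · push Not at h
      obtain ⟨i, hi, hx⟩ := h
      apply Finset.prod_eq_zero (Finset.mem_univ i)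
      unfold cubeFactor
      simp [hi, hx]
    · push Not at h
      obtain ⟨i, hi, hx⟩ := h
      apply Finset.prod_eq_zero (Finset.mem_univ i)
      unfold cubeFactor
      simp [hi, hx]

/-- The coefficient of the indicator of a subcube. -/
noncomputable def coefInd (Q : Finset ι × Finset ι) (S : Finset ι) : ℝ :=
  ∑ x : ι → Bool, (if inCube Q x then (1 : ℝ) else 0) * ∏ i ∈ S, sg (x i)

lemma coefInd_eq (Q : Finset ι × Finset ι) (hQ : Disjoint Q.1 Q.2) (S : Finset ι) :
    coefInd Q S = if S ⊆ Q.1 ∪ Q.2 then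
      (-1 : ℝ) ^ (S ∩ Q.2).card * (2 : ℝ) ^ (Fintype.card ι - (Q.1 ∪ Q.2).card) else 0 := by
  unfold coefInd
  have h1 : ∀ x : ι → Bool, (if inCube Q x then (1 : ℝ) else 0) * ∏ i ∈ S, sg (x i) =
      ∏ i, (cubeFactor Q i (x i) * (if i ∈ S then sg (x i) else 1)) := by
    intro x
    rw [ind_eq_prod, Finset.prod_mul_distrib, Fintype.prod_ite_mem]
  simp_rw [h1]
  rw [← Fintype.prod_sum (fun (i : ι) (b : Bool) => cubeFactor Q i b * (if i ∈ S then sg b else 1))]
  have h2 : ∀ i : ι, ∑ b : Bool, cubeFactor Q i b * (if i ∈ S then sg b else 1) =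
      (if i ∈ S ∩ Q.2 then (-1 : ℝ) else 1) *
        (if i ∈ Q.1 ∪ Q.2 then 1 else (if i ∈ S then 0 else 2)) := by
    intro i
    have hdisj : i ∈ Q.1 → i ∉ Q.2 := fun h1 h2 => (Finset.disjoint_left.mp hQ) h1 h2
    unfold cubeFactor
    by_cases h1 : i ∈ Q.1
    · have h2 : i ∉ Q.2 := hdisj h1
      by_cases h3 : i ∈ S <;> simp [h1, h2, h3, sg]
    · by_cases h2 : i ∈ Q.2 <;> by_cases h3 : i ∈ S <;> simp [h1, h2, h3, sg]
  simp_rw [h2]
  rw [Finset.prod_mul_distrib]
  have h3 : ∏ i : ι, (if i ∈ S ∩ Q.2 then (-1 : ℝ) else 1) = (-1 : ℝ) ^ (S ∩ Q.2).card := by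
    rw [Fintype.prod_ite_mem, Finset.prod_const]
  rw [h3]
  split_ifs with hS
  · congr 1
    have h4 : ∀ i : ι, (if i ∈ Q.1 ∪ Q.2 then (1 : ℝ) else (if i ∈ S then 0 else 2)) =
        (if i ∈ (Q.1 ∪ Q.2)ᶜ then 2 else 1) := by
      intro i
      by_cases h : i ∈ Q.1 ∪ Q.2
      · have hc : i ∉ (Q.1 ∪ Q.2)ᶜ := fun hc => (Finset.mem_compl.mp hc) h
        rw [if_pos h, if_neg hc]
      · have : i ∉ S := fun hi => h (hS hi)
        have hc : i ∈ (Q.1 ∪ Q.2)ᶜ := Finset.mem_compl.mpr h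
        rw [if_neg h, if_neg this, if_pos hc]
    simp_rw [h4]
    rw [Fintype.prod_ite_mem, Finset.prod_const, Finset.card_compl]
  · obtain ⟨i, hiS, hi⟩ := Finset.not_subset.mp hS
    rw [Finset.prod_eq_zero (Finset.mem_univ i) (by simp [hi, hiS]), mul_zero]

/-- The Boolean function whose true set is the union of the listed subcubes. -/
def ofCubes (cubes : List (Finset ι × Finset ι)) (x : ι → Bool) : Bool :=
  decide (∃ Q ∈ cubes, inCube Q x)

/-- Two subcubes conflict (hence are disjoint) when a coordinate is fixed oppositely. -/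
def Conflict (Q Q' : Finset ι × Finset ι) : Prop :=
  ¬ Disjoint Q.1 Q'.2 ∨ ¬ Disjoint Q.2 Q'.1

instance (Q Q' : Finset ι × Finset ι) : Decidable (Conflict Q Q') := by
  unfold Conflict; infer_instance

omit [Fintype ι] [DecidableEq ι] in
lemma not_inCube_of_conflict {Q Q' : Finset ι × Finset ι} (h : Conflict Q Q') (x : ι → Bool)
    (hx : inCube Q x) : ¬ inCube Q' x := by
  intro hx'
  rcases h with h | h
  · rw [Finset.not_disjoint_iff] at h
    obtain ⟨i, h1, h2⟩ := h
    have := hx.1 i h1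
    have := hx'.2 i h2
    simp_all
  · rw [Finset.not_disjoint_iff] at h
    obtain ⟨i, h1, h2⟩ := h
    have := hx.2 i h1
    have := hx'.1 i h2
    simp_all

lemma sum_ind (cubes : List (Finset ι × Finset ι)) (hpair : cubes.Pairwise Conflict)
    (x : ι → Bool) :
    (cubes.map (fun Q => if inCube Q x then (1 : ℝ) else 0)).sum =
      if (∃ Q ∈ cubes, inCube Q x) then 1 else 0 := by
  induction cubes with
  | nil => simp
  | cons Q rest ih =>
    rw [List.pairwise_cons] at hpair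
    rw [List.map_cons, List.sum_cons, ih hpair.2]
    by_cases hQ : inCube Q x
    · have hrest : ¬ ∃ Q' ∈ rest, inCube Q' x := by
        rintro ⟨Q', hQ', hx'⟩
        exact not_inCube_of_conflict (hpair.1 Q' hQ') x hQ hx'
      have hex : ∃ Q' ∈ Q :: rest, inCube Q' x := ⟨Q, List.mem_cons_self, hQ⟩
      rw [if_pos hQ, if_neg hrest, if_pos hex, add_zero]
    · rw [if_neg hQ, zero_add]
      by_cases hrest : ∃ Q' ∈ rest, inCube Q' x
      · have hex : ∃ Q' ∈ Q :: rest, inCube Q' x := by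
          obtain ⟨Q', hQ', hx'⟩ := hrest
          exact ⟨Q', List.mem_cons_of_mem _ hQ', hx'⟩
        rw [if_pos hrest, if_pos hex]
      · have hex : ¬ ∃ Q' ∈ Q :: rest, inCube Q' x := by
          rintro ⟨Q', hQ', hx'⟩
          rcases List.mem_cons.mp hQ' with h | h
          · exact hQ (h ▸ hx')
          · exact hrest ⟨Q', h, hx'⟩
        rw [if_neg hrest, if_neg hex]

lemma sg_ofCubes (cubes : List (Finset ι × Finset ι)) (hpair : cubes.Pairwise Conflict)
    (x : ι → Bool) :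
    sg (ofCubes cubes x) = 2 * (cubes.map (fun Q => if inCube Q x then (1 : ℝ) else 0)).sum - 1 := by
  rw [sum_ind cubes hpair x]
  unfold ofCubes sg
  by_cases h : ∃ Q ∈ cubes, inCube Q x
  · simp [h]; norm_num
  · simp [h]

lemma sum_list_mul (cubes : List (Finset ι × Finset ι)) (S : Finset ι) :
    ∑ x : ι → Bool, (cubes.map (fun Q => if inCube Q x then (1 : ℝ) else 0)).sum * ∏ i ∈ S, sg (x i)
      = (cubes.map (fun Q => coefInd Q S)).sum := by
  induction cubes with
  | nil => simp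
  | cons Q rest ih =>
    simp only [List.map_cons, List.sum_cons, add_mul, Finset.sum_add_distrib]
    rw [ih]
    rfl

/-- The coefficients of a function given by pairwise conflicting subcubes. -/
theorem coef_ofCubes (cubes : List (Finset ι × Finset ι)) (hpair : cubes.Pairwise Conflict)
    (S : Finset ι) :
    coef (ofCubes cubes) S = 2 * (cubes.map (fun Q => coefInd Q S)).sum -
      (if S = ∅ then (2 : ℝ) ^ Fintype.card ι else 0) := by
  unfold coef
  simp_rw [sg_ofCubes cubes hpair, sub_mul, one_mul, mul_assoc]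
  rw [Finset.sum_sub_distrib, ← Finset.mul_sum, sum_list_mul, sum_chi]

omit [Fintype ι] [DecidableEq ι] in
lemma finset_sum_list_map {κ : Type*} (s : Finset κ) (cubes : List (Finset ι × Finset ι))
    (F : κ → Finset ι × Finset ι → ℝ) :
    ∑ i ∈ s, (cubes.map (F i)).sum = (cubes.map (fun Q => ∑ i ∈ s, F i Q)).sum := by
  induction cubes with
  | nil => simp
  | cons Q rest ih =>
    simp only [List.map_cons, List.sum_cons, Finset.sum_add_distrib]
    rw [ih]

/-- The codimension of a subcube. -/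
def codim (Q : Finset ι × Finset ι) : ℕ := (Q.1 ∪ Q.2).card

lemma coefInd_empty (Q : Finset ι × Finset ι) (hQ : Disjoint Q.1 Q.2) :
    coefInd Q ∅ = (2 : ℝ) ^ Fintype.card ι / (2 : ℝ) ^ codim Q := by
  rw [coefInd_eq Q hQ, if_pos (Finset.empty_subset _)]
  have hle : (Q.1 ∪ Q.2).card ≤ Fintype.card ι := Finset.card_le_univ _
  rw [Finset.empty_inter, Finset.card_empty, pow_zero, one_mul, codim, pow_sub₀ _ (by norm_num) hle,
    div_eq_mul_inv]

lemma coefInd_singleton (Q : Finset ι × Finset ι) (hQ : Disjoint Q.1 Q.2) (i : ι) :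
    coefInd Q {i} = ((if i ∈ Q.1 then (1 : ℝ) else 0) - (if i ∈ Q.2 then 1 else 0)) *
      ((2 : ℝ) ^ Fintype.card ι / (2 : ℝ) ^ codim Q) := by
  rw [coefInd_eq Q hQ]
  have hle : (Q.1 ∪ Q.2).card ≤ Fintype.card ι := Finset.card_le_univ _
  have hdisj : i ∈ Q.1 → i ∉ Q.2 := fun h1 h2 => (Finset.disjoint_left.mp hQ) h1 h2
  rw [codim, pow_sub₀ _ (by norm_num) hle, div_eq_mul_inv]
  by_cases h1 : i ∈ Q.1
  · have h2 : i ∉ Q.2 := hdisj h1
    simp [h1, h2]
  · by_cases h2 : i ∈ Q.2
    · simp [h1, h2]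
    · simp [h1, h2]

lemma sum_mem_sub (Q : Finset ι × Finset ι) :
    ∑ i : ι, ((if i ∈ Q.1 then (1 : ℝ) else 0) - (if i ∈ Q.2 then 1 else 0)) =
      (Q.1.card : ℝ) - Q.2.card := by
  rw [Finset.sum_sub_distrib]
  simp

end CubeList

/-- Base-case interface: a list of pairwise conflicting subcubes of `Fin m → Bool` of codimension
at most `d₀` and total measure one half whose weighted sum of (plus − minus) counts is large gives
the S0085 conclusion for every `C`. All hypotheses are decidable. -/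
theorem unbounded_of_cubes (m : ℕ) (cubes : List (Finset (Fin m) × Finset (Fin m))) (d₀ : ℕ)
    (hd₀ : 1 ≤ d₀)
    (hPM' : cubes.all (fun Q => decide (Disjoint Q.1 Q.2)) = true)
    (hpair : cubes.Pairwise Conflict)
    (hcodim' : cubes.all (fun Q => decide (codim Q ≤ d₀)) = true)
    (hbal : (cubes.map (fun Q => (2 : ℕ) ^ (d₀ - codim Q))).sum = 2 ^ (d₀ - 1))
    (hWpos : 0 < (cubes.map (fun Q => (2 : ℤ) ^ (d₀ - codim Q) * ((Q.1.card : ℤ) - Q.2.card))).sum)
    (hW : (d₀ : ℤ) * (2 ^ (d₀ - 1)) ^ 2 <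
      ((cubes.map (fun Q => (2 : ℤ) ^ (d₀ - codim Q) * ((Q.1.card : ℤ) - Q.2.card))).sum) ^ 2)
    (C : ℝ) :
    ∃ n : ℕ, ∃ f : (Fin n → Bool) → Bool, ∃ d : ℕ,
      (∃ x y, f x ≠ f y) ∧
      (∀ S : Finset (Fin n), d < S.card →
        ∑ x : Fin n → Bool, ((if f x then (1 : ℝ) else -1) * ∏ i ∈ S, (if x i then (1 : ℝ) else -1)) = 0) ∧
      C * Real.sqrt d <
        ∑ i : Fin n, (∑ x : Fin n → Bool, ((if f x then (1 : ℝ) else -1) * (if x i then (1 : ℝ) else -1))) / 2 ^ n := by
  have hPM : ∀ Q ∈ cubes, Disjoint Q.1 Q.2 := by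
    intro Q hQ
    exact of_decide_eq_true (List.all_eq_true.mp hPM' Q hQ)
  have hcodim : ∀ Q ∈ cubes, codim Q ≤ d₀ := by
    intro Q hQ
    exact of_decide_eq_true (List.all_eq_true.mp hcodim' Q hQ)
  have h2d : (0 : ℝ) < (2 : ℝ) ^ d₀ := by positivity
  -- real form of the per-cube weights
  have hwt : ∀ Q ∈ cubes, ((2 : ℝ) ^ (d₀ - codim Q)) = (2 : ℝ) ^ d₀ / (2 : ℝ) ^ codim Q := by
    intro Q hQ
    rw [pow_sub₀ _ (by norm_num) (hcodim Q hQ), div_eq_mul_inv]
  -- balance: sum of 1 / 2 ^ codim is 1 / 2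
  have hbalR : (cubes.map (fun Q => (1 : ℝ) / (2 : ℝ) ^ codim Q)).sum = 1 / 2 := by
    have h1 := congrArg (Nat.cast : ℕ → ℝ) hbal
    rw [Nat.cast_list_sum, List.map_map] at h1
    have h2 : (cubes.map ((Nat.cast : ℕ → ℝ) ∘ fun Q => (2 : ℕ) ^ (d₀ - codim Q))) =
        cubes.map (fun Q => (2 : ℝ) ^ d₀ * ((1 : ℝ) / (2 : ℝ) ^ codim Q)) := by
      apply List.map_congr_left
      intro Q hQ
      simp only [Function.comp, Nat.cast_pow, Nat.cast_ofNat]
      rw [hwt Q hQ]; ring
    rw [h2, List.sum_map_mul_left] at h1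
    have h3 : ((2 ^ (d₀ - 1) : ℕ) : ℝ) = (2 : ℝ) ^ d₀ * (1 / 2) := by
      rw [Nat.cast_pow, Nat.cast_ofNat, pow_sub₀ _ (by norm_num) hd₀]; ring
    rw [h3] at h1
    exact mul_left_cancel₀ h2d.ne' h1
  -- balanced
  have hcoef0 : coef (ofCubes cubes) ∅ = 0 := by
    rw [coef_ofCubes cubes hpair, if_pos rfl]
    have h2 : cubes.map (fun Q => coefInd Q (∅ : Finset (Fin m))) =
        cubes.map (fun Q => (2 : ℝ) ^ Fintype.card (Fin m) * ((1 : ℝ) / (2 : ℝ) ^ codim Q)) := by
      apply List.map_congr_left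
      intro Q hQ
      rw [coefInd_empty Q (hPM Q hQ)]; ring
    rw [h2, List.sum_map_mul_left, hbalR]; ring
  -- degree
  have hdeg : ∀ S : Finset (Fin m), d₀ < S.card → coef (ofCubes cubes) S = 0 := by
    intro S hS
    have hne : S ≠ ∅ := by
      rintro rfl
      simp at hS
    rw [coef_ofCubes cubes hpair, if_neg hne, sub_zero]
    have : (cubes.map (fun Q => coefInd Q S)).sum = 0 := by
      apply List.sum_eq_zero
      intro v hv
      obtain ⟨Q, hQ, rfl⟩ := List.mem_map.mp hv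
      rw [coefInd_eq Q (hPM Q hQ), if_neg]
      intro hsub
      have := Finset.card_le_card hsub
      have := hcodim Q hQ
      unfold codim at this
      omega
    rw [this, mul_zero]
  -- level-one sum
  have hWval : W (ofCubes cubes) =
      2 * (cubes.map (fun Q => ((Q.1.card : ℝ) - Q.2.card) / (2 : ℝ) ^ codim Q)).sum := by
    unfold W
    have h1 : ∀ i : Fin m, coef (ofCubes cubes) {i} / (2 : ℝ) ^ Fintype.card (Fin m) =
        (cubes.map (fun Q => 2 * (((if i ∈ Q.1 then (1 : ℝ) else 0) - (if i ∈ Q.2 then 1 else 0)) /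
          (2 : ℝ) ^ codim Q))).sum := by
      intro i
      rw [coef_ofCubes cubes hpair, if_neg (Finset.singleton_ne_empty i), sub_zero]
      have h2 : cubes.map (fun Q => coefInd Q ({i} : Finset (Fin m))) =
          cubes.map (fun Q => (2 : ℝ) ^ Fintype.card (Fin m) / 2 *
            (2 * (((if i ∈ Q.1 then (1 : ℝ) else 0) - (if i ∈ Q.2 then 1 else 0)) /
              (2 : ℝ) ^ codim Q))) := by
        apply List.map_congr_left
        intro Q hQ
        rw [coefInd_singleton Q (hPM Q hQ)]; ring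
      rw [h2, List.sum_map_mul_left]
      field_simp
    simp_rw [h1]
    rw [finset_sum_list_map, ← List.sum_map_mul_left]
    congr 1
    apply List.map_congr_left
    intro Q _
    rw [← Finset.mul_sum, ← Finset.sum_div, sum_mem_sub]
  -- integer form
  have hWint : (((cubes.map (fun Q => (2 : ℤ) ^ (d₀ - codim Q) * ((Q.1.card : ℤ) - Q.2.card))).sum : ℤ) : ℝ)
      = (2 : ℝ) ^ (d₀ - 1) * W (ofCubes cubes) := by
    rw [hWval, Int.cast_list_sum, List.map_map]
    have h2 : (cubes.map ((Int.cast : ℤ → ℝ) ∘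
        fun Q => (2 : ℤ) ^ (d₀ - codim Q) * ((Q.1.card : ℤ) - Q.2.card))) =
        cubes.map (fun Q => (2 : ℝ) ^ d₀ * (((Q.1.card : ℝ) - Q.2.card) / (2 : ℝ) ^ codim Q)) := by
      apply List.map_congr_left
      intro Q hQ
      simp only [Function.comp, Int.cast_mul, Int.cast_pow, Int.cast_ofNat, Int.cast_sub,
        Int.cast_natCast]
      rw [hwt Q hQ]; ring
    rw [h2, List.sum_map_mul_left, pow_sub₀ _ (by norm_num) hd₀]; ring
  have h2d1 : (0 : ℝ) < (2 : ℝ) ^ (d₀ - 1) := by positivity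
  have hWpos' : 0 < W (ofCubes cubes) := by
    have : (0 : ℝ) < (2 : ℝ) ^ (d₀ - 1) * W (ofCubes cubes) := by
      rw [← hWint]; exact_mod_cast hWpos
    exact (mul_pos_iff_of_pos_left h2d1).mp this
  have hW' : (d₀ : ℝ) < W (ofCubes cubes) ^ 2 := by
    have h1 : ((d₀ : ℤ) : ℝ) * ((2 : ℝ) ^ (d₀ - 1)) ^ 2 <
        ((2 : ℝ) ^ (d₀ - 1) * W (ofCubes cubes)) ^ 2 := by
      rw [← hWint]; exact_mod_cast hW
    rw [mul_pow] at h1
    have h3 : (0 : ℝ) < ((2 : ℝ) ^ (d₀ - 1)) ^ 2 := by positivity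
    have h4 : ((d₀ : ℤ) : ℝ) = (d₀ : ℝ) := by norm_cast
    rw [h4] at h1
    nlinarith
  exact unbounded_of_base m (ofCubes cubes) d₀ hd₀ hcoef0 hdeg hWpos' hW' C

end Crest.Agent.Helper8
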