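import Crest.Agent.Helper8.Biased

/-!
Helper8: a kernel-checkable interface for a concrete S0085 gadget.

A gadget is given by an integer multilinear polynomial in 0/1 variables, as a list of
(mask, coefficient) pairs: monomial `mask` is the product of the variables whose bit is set.
If the polynomial takes only the values 0 and 1 on the cube, the Boolean function it defines has
degree at most the largest monomial size, and its mean polynomial is explicit.
-/

set_option autoImplicit false

namespace Crest.Agent.Helper8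

open Finset

/-- The 0/1 value of a Boolean. -/
noncomputable def bi (b : Bool) : ℝ := if b then 1 else 0

lemma sg_eq_bi (b : Bool) : sg b = 2 * bi b - 1 := by
  cases b
  · simp [sg, bi]
  · simp [sg, bi]; norm_num

section PolyRep

variable {ι : Type*} [Fintype ι] [DecidableEq ι]

/-- The monomial `∏_{i ∈ S} x_i` in 0/1 variables. -/
noncomputable def mono (S : Finset ι) (x : ι → Bool) : ℝ := ∏ i ∈ S, bi (x i)

lemma sum_list_map_comm {X α : Type*} [Fintype X] (L : List α) (F : α → X → ℝ) :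
    ∑ x, (L.map (fun a => F a x)).sum = (L.map (fun a => ∑ x, F a x)).sum := by
  induction L with
  | nil => simp
  | cons a L ih => simp [Finset.sum_add_distrib, ih]

/-- Pairing of a monomial with a character. -/
lemma sum_mono_chi (S T : Finset ι) :
    ∑ x : ι → Bool, mono S x * ∏ i ∈ T, sg (x i) =
      if T ⊆ S then (2 : ℝ) ^ (Fintype.card ι - S.card) else 0 := by
  have h1 : ∀ x : ι → Bool, mono S x * ∏ i ∈ T, sg (x i) =
      ∏ i, ((if i ∈ S then bi (x i) else 1) * (if i ∈ T then sg (x i) else 1)) := by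
    intro x
    rw [Finset.prod_mul_distrib, Fintype.prod_ite_mem, Fintype.prod_ite_mem]
    rfl
  simp_rw [h1]
  rw [← Fintype.prod_sum
    (fun (i : ι) (b : Bool) => (if i ∈ S then bi b else 1) * (if i ∈ T then sg b else 1))]
  have h2 : ∀ i : ι, ∑ b : Bool, ((if i ∈ S then bi b else 1) * (if i ∈ T then sg b else 1)) =
      if i ∈ S then (1 : ℝ) else (if i ∈ T then 0 else 2) := by
    intro i
    by_cases hS : i ∈ S <;> by_cases hT : i ∈ T <;> simp [hS, hT, bi, sg]
  simp_rw [h2]
  split_ifs with hTS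
  · have h3 : ∀ i : ι, (if i ∈ S then (1 : ℝ) else (if i ∈ T then 0 else 2)) =
        if i ∈ Sᶜ then (2 : ℝ) else 1 := by
      intro i
      by_cases hS : i ∈ S
      · simp [hS]
      · have : i ∉ T := fun h => hS (hTS h)
        simp [hS, this]
    simp_rw [h3]
    rw [Fintype.prod_ite_mem, Finset.prod_const, Finset.card_compl]
  · obtain ⟨i, hiT, hiS⟩ := Finset.not_subset.mp hTS
    apply Finset.prod_eq_zero (Finset.mem_univ i)
    simp [hiS, hiT]

/-- `g` is represented by the polynomial with monomial list `L`. -/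
def IsPolyRep (g : (ι → Bool) → Bool) (L : List (Finset ι × ℝ)) : Prop :=
  ∀ x, bi (g x) = (L.map (fun sc => sc.2 * mono sc.1 x)).sum

/-- The Fourier–Walsh coefficients of a represented function. -/
theorem coef_of_rep {g : (ι → Bool) → Bool} {L : List (Finset ι × ℝ)} (hrep : IsPolyRep g L)
    (T : Finset ι) :
    coef g T = 2 * (L.map (fun sc => sc.2 *
        (if T ⊆ sc.1 then (2 : ℝ) ^ (Fintype.card ι - sc.1.card) else 0))).sum -
      (if T = ∅ then (2 : ℝ) ^ Fintype.card ι else 0) := by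
  unfold coef
  have h1 : ∀ x : ι → Bool, sg (g x) * ∏ i ∈ T, sg (x i) =
      2 * (L.map (fun sc => sc.2 * (mono sc.1 x * ∏ i ∈ T, sg (x i)))).sum -
        ∏ i ∈ T, sg (x i) := by
    intro x
    have hmap : (L.map (fun sc : Finset ι × ℝ => sc.2 * mono sc.1 x)).sum * ∏ i ∈ T, sg (x i) =
        (L.map (fun sc : Finset ι × ℝ => sc.2 * (mono sc.1 x * ∏ i ∈ T, sg (x i)))).sum := by
      rw [← List.sum_map_mul_right]
      congr 1
      apply List.map_congr_left
      intro sc _
      ring
    rw [sg_eq_bi, hrep x, sub_mul, one_mul, mul_assoc, hmap]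
  simp_rw [h1]
  rw [Finset.sum_sub_distrib, ← Finset.mul_sum, sum_chi, sum_list_map_comm]
  have hmap : (L.map (fun sc : Finset ι × ℝ =>
      ∑ x : ι → Bool, sc.2 * (mono sc.1 x * ∏ i ∈ T, sg (x i)))) =
      (L.map (fun sc : Finset ι × ℝ => sc.2 *
        (if T ⊆ sc.1 then (2 : ℝ) ^ (Fintype.card ι - sc.1.card) else 0))) := by
    apply List.map_congr_left
    intro sc _
    rw [← Finset.mul_sum, sum_mono_chi]
  rw [hmap]

/-- Degree bound of a represented function. -/
theorem degLE_of_rep {g : (ι → Bool) → Bool} {L : List (Finset ι × ℝ)} (hrep : IsPolyRep g L)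
    (d : ℕ) (hL : ∀ sc ∈ L, sc.1.card ≤ d) (T : Finset ι) (hT : d < T.card) : coef g T = 0 := by
  rw [coef_of_rep hrep T]
  have hne : T ≠ ∅ := by
    intro h
    rw [h] at hT
    simp at hT
  rw [if_neg hne, sub_zero]
  have : (L.map (fun sc : Finset ι × ℝ => sc.2 *
      (if T ⊆ sc.1 then (2 : ℝ) ^ (Fintype.card ι - sc.1.card) else 0))).sum = 0 := by
    apply List.sum_eq_zero
    intro z hz
    rw [List.mem_map] at hz
    obtain ⟨sc, hsc, rfl⟩ := hz
    have hns : ¬ T ⊆ sc.1 := by
      intro hsub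
      have := Finset.card_le_card hsub
      have := hL sc hsc
      omega
    rw [if_neg hns, mul_zero]
  rw [this, mul_zero]

lemma sum_subsets_pow (S : Finset ι) (t : ℝ) :
    ∑ T : Finset ι, (if T ⊆ S then t ^ T.card else 0) = (1 + t) ^ S.card := by
  rw [← Finset.sum_filter]
  have h1 : (Finset.univ.filter (fun T : Finset ι => T ⊆ S)) = S.powerset := by
    ext T; simp
  rw [h1]
  have h2 := Finset.sum_pow_mul_eq_add_pow t 1 S
  simp only [one_pow, mul_one] at h2
  rw [h2, add_comm]

/-- The mean polynomial of a represented function. -/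
theorem meanPoly_of_rep {g : (ι → Bool) → Bool} {L : List (Finset ι × ℝ)} (hrep : IsPolyRep g L)
    (t : ℝ) :
    meanPoly g t = 2 * (L.map (fun sc => sc.2 * ((1 + t) / 2) ^ sc.1.card)).sum - 1 := by
  unfold meanPoly
  have hpos : (0 : ℝ) < (2 : ℝ) ^ Fintype.card ι := by positivity
  have h1 : ∀ T : Finset ι, coef g T / (2 : ℝ) ^ Fintype.card ι * t ^ T.card =
      2 * (L.map (fun sc => sc.2 * (1 / (2 : ℝ) ^ sc.1.card) *
        (if T ⊆ sc.1 then t ^ T.card else 0))).sum - (if T = ∅ then (1 : ℝ) else 0) := by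
    intro T
    have hmap : (L.map (fun sc : Finset ι × ℝ => sc.2 *
          (if T ⊆ sc.1 then (2 : ℝ) ^ (Fintype.card ι - sc.1.card) else 0))).sum *
        (t ^ T.card / (2 : ℝ) ^ Fintype.card ι) =
        (L.map (fun sc : Finset ι × ℝ => sc.2 * (1 / (2 : ℝ) ^ sc.1.card) *
          (if T ⊆ sc.1 then t ^ T.card else 0))).sum := by
      rw [← List.sum_map_mul_right]
      congr 1
      apply List.map_congr_left
      intro sc _
      by_cases hTS : T ⊆ sc.1
      · rw [if_pos hTS, if_pos hTS]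
        have hle : sc.1.card ≤ Fintype.card ι := Finset.card_le_univ _
        rw [pow_sub₀ (2 : ℝ) two_ne_zero hle]
        field_simp
      · rw [if_neg hTS, if_neg hTS]; simp
    have hB : (if T = ∅ then (2 : ℝ) ^ Fintype.card ι else 0) / (2 : ℝ) ^ Fintype.card ι *
        t ^ T.card = (if T = ∅ then (1 : ℝ) else 0) := by
      by_cases hT : T = ∅
      · subst hT
        simp
      · simp [hT]
    rw [coef_of_rep hrep T, ← hmap, ← hB]
    ring
  simp_rw [h1]
  rw [Finset.sum_sub_distrib, ← Finset.mul_sum, sum_list_map_comm]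
  have hmap : (L.map (fun sc : Finset ι × ℝ => ∑ T : Finset ι,
      sc.2 * (1 / (2 : ℝ) ^ sc.1.card) * (if T ⊆ sc.1 then t ^ T.card else 0))) =
      (L.map (fun sc : Finset ι × ℝ => sc.2 * ((1 + t) / 2) ^ sc.1.card)) := by
    apply List.map_congr_left
    intro sc _
    rw [← Finset.mul_sum, sum_subsets_pow, div_pow]
    ring
  rw [hmap]
  simp

end PolyRep

section Deriv

variable {ι : Type*} [Fintype ι] [DecidableEq ι]

lemma hasDerivAt_meanPoly (f : (ι → Bool) → Bool) (t : ℝ) :
    HasDerivAt (meanPoly f) (meanDeriv f t) t := by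
  have h : ∀ T ∈ (Finset.univ : Finset (Finset ι)),
      HasDerivAt (fun s : ℝ => coef f T / (2 : ℝ) ^ Fintype.card ι * s ^ T.card)
        ((T.card : ℝ) * (coef f T / (2 : ℝ) ^ Fintype.card ι) * t ^ (T.card - 1)) t := by
    intro T _
    have h0 := (hasDerivAt_pow T.card t).const_mul (coef f T / (2 : ℝ) ^ Fintype.card ι)
    have e : (T.card : ℝ) * (coef f T / (2 : ℝ) ^ Fintype.card ι) * t ^ (T.card - 1)
        = coef f T / (2 : ℝ) ^ Fintype.card ι * ((T.card : ℝ) * t ^ (T.card - 1)) := by ring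
    rw [e]
    exact h0
  exact HasDerivAt.fun_sum h

end Deriv

section Concrete

/-- The variables of a monomial mask. -/
def maskSet (m : ℕ) (s : ℕ) : Finset (Fin m) := Finset.univ.filter (fun i => s.testBit i)

/-- Value of the polynomial `L` at the cube point with bitmask `n`. -/
def pev (L : List (ℕ × ℤ)) (n : ℕ) : ℤ :=
  (L.map (fun mc => if mc.1 &&& n = mc.1 then mc.2 else 0)).sum

/-- The Boolean function of a 0/1-valued polynomial. -/
def gadget (m : ℕ) (L : List (ℕ × ℤ)) : (Fin m → Bool) → Bool :=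
  fun x => decide (pev L (Nat.ofBits x) = 1)

/-- The monomial list over the reals. -/
noncomputable def realRep (m : ℕ) (L : List (ℕ × ℤ)) : List (Finset (Fin m) × ℝ) :=
  L.map (fun mc => (maskSet m mc.1, (mc.2 : ℝ)))

lemma land_eq_iff (m s : ℕ) (hs : s < 2 ^ m) (x : Fin m → Bool) :
    (s &&& Nat.ofBits x = s) ↔ ∀ i ∈ maskSet m s, x i = true := by
  constructor
  · intro h i hi
    have hi' : s.testBit i = true := by simpa [maskSet] using hi
    have h1 : (s &&& Nat.ofBits x).testBit i = s.testBit i := by rw [h]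
    rw [Nat.testBit_and, hi', Bool.true_and, Nat.testBit_ofBits_lt x i i.2] at h1
    exact h1
  · intro h
    apply Nat.eq_of_testBit_eq
    intro j
    rw [Nat.testBit_and]
    by_cases hj : s.testBit j = true
    · have hjm : j < m := by
        by_contra hcon
        have hle : m ≤ j := not_lt.mp hcon
        have : s < 2 ^ j := lt_of_lt_of_le hs (Nat.pow_le_pow_right (by norm_num) hle)
        rw [Nat.testBit_lt_two_pow this] at hj
        exact Bool.false_ne_true hj
      have hmem : (⟨j, hjm⟩ : Fin m) ∈ maskSet m s := by simpa [maskSet] using hj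
      rw [hj, Bool.true_and, Nat.testBit_ofBits_lt x j hjm]
      exact h _ hmem
    · have hj' : s.testBit j = false := by simpa using hj
      rw [hj', Bool.false_and]

lemma mono_maskSet (m s : ℕ) (hs : s < 2 ^ m) (x : Fin m → Bool) :
    mono (maskSet m s) x = if s &&& Nat.ofBits x = s then 1 else 0 := by
  unfold mono
  split_ifs with h
  · rw [land_eq_iff m s hs x] at h
    apply Finset.prod_eq_one
    intro i hi
    simp [bi, h i hi]
  · rw [land_eq_iff m s hs x] at h
    rw [not_forall] at h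
    obtain ⟨i, hi⟩ := h
    rw [Classical.not_imp] at hi
    apply Finset.prod_eq_zero hi.1
    simp [bi, hi.2]

lemma pev_cast (m : ℕ) (x : Fin m → Bool) (L : List (ℕ × ℤ)) (hmask : ∀ mc ∈ L, mc.1 < 2 ^ m) :
    ((pev L (Nat.ofBits x) : ℤ) : ℝ) = ((realRep m L).map (fun sc => sc.2 * mono sc.1 x)).sum := by
  induction L with
  | nil => simp [pev, realRep]
  | cons mc L ih =>
    have h1 := ih (fun mc' h => hmask mc' (List.mem_cons_of_mem _ h))
    have h2 : pev (mc :: L) (Nat.ofBits x) =
        (if mc.1 &&& Nat.ofBits x = mc.1 then mc.2 else 0) + pev L (Nat.ofBits x) := by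
      simp [pev]
    have h3 : ((realRep m (mc :: L)).map (fun sc => sc.2 * mono sc.1 x)).sum =
        (mc.2 : ℝ) * mono (maskSet m mc.1) x +
          ((realRep m L).map (fun sc => sc.2 * mono sc.1 x)).sum := by
      simp [realRep]
    rw [h2, h3, Int.cast_add, h1, mono_maskSet m mc.1 (hmask mc List.mem_cons_self) x]
    split_ifs <;> simp

theorem gadget_rep (m : ℕ) (L : List (ℕ × ℤ)) (hmask : ∀ mc ∈ L, mc.1 < 2 ^ m)
    (hbool : ∀ n < 2 ^ m, pev L n = 0 ∨ pev L n = 1) :
    IsPolyRep (gadget m L) (realRep m L) := by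
  intro x
  rw [← pev_cast m x L hmask]
  rcases hbool _ (Nat.ofBits_lt_two_pow x) with h | h
  · simp [gadget, bi, h]
  · simp [gadget, bi, h]

/-- Sum of the coefficients of the monomials of size `k`. -/
def levelSum (m : ℕ) (L : List (ℕ × ℤ)) (k : ℕ) : ℤ :=
  (L.map (fun mc => if (maskSet m mc.1).card = k then mc.2 else 0)).sum

/-- The bias polynomial `Q(p) = Pr_p[g = 1]`. -/
noncomputable def Qf (m : ℕ) (L : List (ℕ × ℤ)) (d : ℕ) (p : ℝ) : ℝ :=
  ∑ k ∈ Finset.range (d + 1), (levelSum m L k : ℝ) * p ^ k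

/-- Its derivative. -/
noncomputable def Qd (m : ℕ) (L : List (ℕ × ℤ)) (d : ℕ) (p : ℝ) : ℝ :=
  ∑ k ∈ Finset.range (d + 1), (levelSum m L k : ℝ) * ((k : ℝ) * p ^ (k - 1))

lemma hasDerivAt_Qf (m : ℕ) (L : List (ℕ × ℤ)) (d : ℕ) (p : ℝ) :
    HasDerivAt (Qf m L d) (Qd m L d p) p := by
  have h : ∀ k ∈ Finset.range (d + 1),
      HasDerivAt (fun s : ℝ => (levelSum m L k : ℝ) * s ^ k)
        ((levelSum m L k : ℝ) * ((k : ℝ) * p ^ (k - 1))) p := by
    intro k _
    exact (hasDerivAt_pow k p).const_mul _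
  exact HasDerivAt.fun_sum h

lemma rep_sum_eq_Qf (m : ℕ) (L : List (ℕ × ℤ)) (d : ℕ)
    (hlvl : ∀ mc ∈ L, (maskSet m mc.1).card ≤ d) (p : ℝ) :
    ((realRep m L).map (fun sc => sc.2 * p ^ sc.1.card)).sum = Qf m L d p := by
  induction L with
  | nil => simp [realRep, Qf, levelSum]
  | cons mc L ih =>
    have h1 := ih (fun mc' h => hlvl mc' (List.mem_cons_of_mem _ h))
    have h2 : ((realRep m (mc :: L)).map (fun sc => sc.2 * p ^ sc.1.card)).sum =
        (mc.2 : ℝ) * p ^ (maskSet m mc.1).card +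
          ((realRep m L).map (fun sc => sc.2 * p ^ sc.1.card)).sum := by
      simp [realRep]
    have h3 : ∀ k, levelSum m (mc :: L) k =
        (if (maskSet m mc.1).card = k then mc.2 else 0) + levelSum m L k := by
      intro k; simp [levelSum]
    rw [h2, h1]
    unfold Qf
    simp_rw [h3, Int.cast_add, add_mul, Finset.sum_add_distrib]
    congr 1
    have hmem : (maskSet m mc.1).card ∈ Finset.range (d + 1) := by
      rw [Finset.mem_range]
      have := hlvl mc List.mem_cons_self
      omega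
    have h4 : ∀ k ∈ Finset.range (d + 1),
        (((if (maskSet m mc.1).card = k then mc.2 else 0 : ℤ)) : ℝ) * p ^ k =
          if (maskSet m mc.1).card = k then (mc.2 : ℝ) * p ^ (maskSet m mc.1).card else 0 := by
      intro k _
      split_ifs with hk
      · rw [hk]
      · simp
    rw [Finset.sum_congr rfl h4, Finset.sum_ite_eq, if_pos hmem]

theorem meanPoly_gadget (m : ℕ) (L : List (ℕ × ℤ)) (d : ℕ) (hmask : ∀ mc ∈ L, mc.1 < 2 ^ m)
    (hlvl : ∀ mc ∈ L, (maskSet m mc.1).card ≤ d)
    (hbool : ∀ n < 2 ^ m, pev L n = 0 ∨ pev L n = 1) (t : ℝ) :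
    meanPoly (gadget m L) t = 2 * Qf m L d ((1 + t) / 2) - 1 := by
  rw [meanPoly_of_rep (gadget_rep m L hmask hbool), rep_sum_eq_Qf m L d hlvl]

theorem meanDeriv_gadget (m : ℕ) (L : List (ℕ × ℤ)) (d : ℕ) (hmask : ∀ mc ∈ L, mc.1 < 2 ^ m)
    (hlvl : ∀ mc ∈ L, (maskSet m mc.1).card ≤ d)
    (hbool : ∀ n < 2 ^ m, pev L n = 0 ∨ pev L n = 1) (t : ℝ) :
    meanDeriv (gadget m L) t = Qd m L d ((1 + t) / 2) := by
  have h1 : HasDerivAt (meanPoly (gadget m L)) (meanDeriv (gadget m L) t) t :=
    hasDerivAt_meanPoly _ t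
  have hfun : meanPoly (gadget m L) = fun s => 2 * Qf m L d ((1 + s) / 2) - 1 := by
    funext s
    exact meanPoly_gadget m L d hmask hlvl hbool s
  have hin : HasDerivAt (fun s : ℝ => (1 + s) / 2) (1 / 2) t :=
    ((hasDerivAt_id t).const_add 1).div_const 2
  have h2 : HasDerivAt (fun s : ℝ => Qf m L d ((1 + s) / 2))
      (Qd m L d ((1 + t) / 2) * (1 / 2)) t :=
    HasDerivAt.comp (h₂ := Qf m L d) (h := fun s : ℝ => (1 + s) / 2) t
      (hasDerivAt_Qf m L d ((1 + t) / 2)) hin
  have h3 : HasDerivAt (fun s : ℝ => 2 * Qf m L d ((1 + s) / 2) - 1)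
      (2 * (Qd m L d ((1 + t) / 2) * (1 / 2))) t :=
    (h2.const_mul 2).sub_const 1
  rw [hfun] at h1
  have := h1.unique h3
  rw [this]
  ring

/-- **Concrete gadget criterion.**  A 0/1-valued integer polynomial with monomials of size at
most `d`, whose bias polynomial `Q` has a fixed point in `[pa, pb] ⊆ (0, 1)` (sign change of
`Q p - p`) and `|Q'| ≥ lam` on `[pa - δ, pb + δ]` with `lam ^ 2 > d`, yields the S0085 conclusion
for every `C`. -/
theorem unbounded_of_gadget (m : ℕ) (L : List (ℕ × ℤ)) (d : ℕ) (hd : 1 ≤ d)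
    (hmask : ∀ mc ∈ L, mc.1 < 2 ^ m)
    (hlvl : ∀ mc ∈ L, (maskSet m mc.1).card ≤ d)
    (hbool : ∀ n < 2 ^ m, pev L n = 0 ∨ pev L n = 1)
    (pa pb δ lam : ℝ) (hpa : 0 < pa) (hab : pa ≤ pb) (hpb : pb < 1) (hδ : 0 < δ)
    (hsign : (Qf m L d pa - pa) * (Qf m L d pb - pb) ≤ 0)
    (hlam : ∀ p : ℝ, pa - δ ≤ p → p ≤ pb + δ → lam ≤ |Qd m L d p|)
    (hlam0 : 0 < lam) (hlam2 : (d : ℝ) < lam ^ 2) (C : ℝ) :
    ∃ n : ℕ, ∃ f : (Fin n → Bool) → Bool, ∃ d : ℕ,
      (∃ x y, f x ≠ f y) ∧
      (∀ S : Finset (Fin n), d < S.card →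
        ∑ x : Fin n → Bool, ((if f x then (1 : ℝ) else -1) *
          ∏ i ∈ S, (if x i then (1 : ℝ) else -1)) = 0) ∧
      C * Real.sqrt d <
        ∑ i : Fin n, (∑ x : Fin n → Bool, ((if f x then (1 : ℝ) else -1) *
          (if x i then (1 : ℝ) else -1))) / 2 ^ n := by
  have hrep := gadget_rep m L hmask hbool
  have hdeg : ∀ S : Finset (Fin m), d < S.card → coef (gadget m L) S = 0 := by
    intro S hS
    apply degLE_of_rep hrep d _ S hS
    intro sc hsc
    simp only [realRep, List.mem_map] at hsc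
    obtain ⟨mc, hmc, rfl⟩ := hsc
    exact hlvl mc hmc
  -- the fixed point
  have hcont : Continuous (fun p : ℝ => Qf m L d p - p) := by
    apply Continuous.sub _ continuous_id
    rw [continuous_iff_continuousAt]
    intro p
    exact (hasDerivAt_Qf m L d p).continuousAt
  have hex : ∃ p ∈ Set.Icc pa pb, Qf m L d p - p = 0 := by
    rcases mul_nonpos_iff.mp hsign with ⟨h1, h2⟩ | ⟨h1, h2⟩
    · have := intermediate_value_Icc' hab hcont.continuousOn
      exact this ⟨h2, h1⟩
    · have := intermediate_value_Icc hab hcont.continuousOn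
      exact this ⟨h1, h2⟩
  obtain ⟨p, ⟨hp1, hp2⟩, hp⟩ := hex
  have hfix : meanPoly (gadget m L) (2 * p - 1) = 2 * p - 1 := by
    rw [meanPoly_gadget m L d hmask hlvl hbool]
    have : (1 + (2 * p - 1)) / 2 = p := by ring
    rw [this]
    linarith
  apply unbounded_of_fixed_point m (gadget m L) d hd hdeg (2 * p - 1) (2 * δ) lam
    (by rw [abs_lt]; constructor <;> linarith) hfix (by linarith) _ hlam0 hlam2 C
  intro s hs
  rw [meanDeriv_gadget m L d hmask hlvl hbool]
  have hs' := abs_le.mp hs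
  apply hlam
  · linarith
  · linarith

end Concrete

end Crest.Agent.Helper8
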