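import Mathlib

/-!
Helper8: tensor-power reduction for S0085.

Fourier–Walsh coefficients (unnormalised) of Boolean functions on a finite Boolean cube
`ι → Bool`, signs read as `true ↦ 1`, `false ↦ -1`; the block composition `comp f g`; the formula
for the coefficients of a composition; and the consequences: degree is submultiplicative, and for a
balanced inner function the level-one sum is multiplicative.
-/

set_option autoImplicit false

namespace Crest.Agent.Helper8

open Finset

/-- The sign of a Boolean: `true ↦ 1`, `false ↦ -1`. -/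
noncomputable def sg (b : Bool) : ℝ := if b then 1 else -1

lemma sg_true : sg true = 1 := by simp [sg]
lemma sg_false : sg false = -1 := by simp [sg]
lemma sg_mul_self (b : Bool) : sg b * sg b = 1 := by cases b <;> simp [sg]
lemma sg_ne_zero (b : Bool) : sg b ≠ 0 := by cases b <;> simp [sg]
lemma sum_sg : ∑ b : Bool, sg b = 0 := by simp [sg]
lemma sum_one_bool : ∑ _b : Bool, (1 : ℝ) = 2 := by simp

section Cube

variable {ι : Type*} [Fintype ι] [DecidableEq ι]

/-- Unnormalised Fourier–Walsh coefficient of `f` at `S`. -/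
noncomputable def coef (f : (ι → Bool) → Bool) (S : Finset ι) : ℝ :=
  ∑ x : ι → Bool, sg (f x) * ∏ i ∈ S, sg (x i)

/-- Sum of a character over the cube. -/
lemma sum_chi (S : Finset ι) :
    ∑ x : ι → Bool, ∏ i ∈ S, sg (x i) = if S = ∅ then (2 : ℝ) ^ Fintype.card ι else 0 := by
  have h1 : ∀ x : ι → Bool, ∏ i ∈ S, sg (x i) = ∏ i, (if i ∈ S then sg (x i) else 1) := by
    intro x; rw [Fintype.prod_ite_mem]
  simp_rw [h1]
  rw [← Fintype.prod_sum (fun (i : ι) (b : Bool) => if i ∈ S then sg b else (1 : ℝ))]
  split_ifs with hS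
  · subst hS
    simp
  · obtain ⟨i, hi⟩ := Finset.nonempty_iff_ne_empty.mpr hS
    apply Finset.prod_eq_zero (Finset.mem_univ i)
    simp [hi, sg]

omit [DecidableEq ι] in
/-- Orthogonality of characters, summed over the character index. -/
lemma sum_chi_mul_chi (x z : ι → Bool) :
    ∑ T : Finset ι, (∏ i ∈ T, sg (x i)) * (∏ i ∈ T, sg (z i)) =
      if x = z then (2 : ℝ) ^ Fintype.card ι else 0 := by
  simp_rw [← Finset.prod_mul_distrib]
  have h := Finset.prod_one_add (f := fun i => sg (x i) * sg (z i)) (Finset.univ : Finset ι)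
  rw [Finset.powerset_univ] at h
  rw [← h]
  split_ifs with hxz
  · subst hxz
    simp [sg_mul_self]
    norm_num
  · have : ∃ i, x i ≠ z i := by
      by_contra hcon
      exact hxz (funext fun i => by_contra fun hi => hcon ⟨i, hi⟩)
    obtain ⟨i, hi⟩ := this
    apply Finset.prod_eq_zero (Finset.mem_univ i)
    cases hx : x i <;> cases hz : z i <;> simp_all [sg]

/-- Fourier inversion on the cube. -/
lemma inversion (f : (ι → Bool) → Bool) (z : ι → Bool) :
    ∑ T : Finset ι, coef f T * ∏ i ∈ T, sg (z i) = (2 : ℝ) ^ Fintype.card ι * sg (f z) := by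
  unfold coef
  simp_rw [Finset.sum_mul]
  rw [Finset.sum_comm]
  have : ∀ x : ι → Bool, ∑ T : Finset ι, sg (f x) * (∏ i ∈ T, sg (x i)) * ∏ i ∈ T, sg (z i) =
      sg (f x) * (if x = z then (2 : ℝ) ^ Fintype.card ι else 0) := by
    intro x
    rw [← sum_chi_mul_chi, Finset.mul_sum]
    apply Finset.sum_congr rfl
    intro T _
    ring
  simp_rw [this]
  simp [mul_comm]

end Cube

section Comp

variable {α β : Type*} [Fintype α] [DecidableEq α] [Fintype β] [DecidableEq β]

/-- Block composition: `f` applied to the values of `g` on the blocks `{a} × β`. -/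
def comp (f : (α → Bool) → Bool) (g : (β → Bool) → Bool) : (α × β → Bool) → Bool :=
  fun x => f (fun a => g (fun b => x (a, b)))

/-- The slice of `S` over `a`. -/
def slice (S : Finset (α × β)) (a : α) : Finset β := Finset.univ.filter (fun b => (a, b) ∈ S)

lemma prod_slice (S : Finset (α × β)) (u : α × β → ℝ) :
    ∏ p ∈ S, u p = ∏ a, ∏ b ∈ slice S a, u (a, b) := by
  rw [← Fintype.prod_ite_mem S u, Fintype.prod_prod_type]
  apply Finset.prod_congr rfl
  intro a _
  rw [slice, Finset.prod_filter]

lemma card_slice (S : Finset (α × β)) : S.card = ∑ a, (slice S a).card := by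
  rw [Finset.card_eq_sum_ones, ← Fintype.sum_ite_mem S (fun _ => 1), Fintype.sum_prod_type]
  apply Finset.sum_congr rfl
  intro a _
  rw [slice, Finset.card_eq_sum_ones, Finset.sum_filter]

/-- The coefficients of a block composition. -/
theorem coef_comp (f : (α → Bool) → Bool) (g : (β → Bool) → Bool) (S : Finset (α × β)) :
    coef (comp f g) S * (2 : ℝ) ^ Fintype.card α =
      ∑ T : Finset α, coef f T *
        ∏ a, (if a ∈ T then coef g (slice S a)
              else (if slice S a = ∅ then (2 : ℝ) ^ Fintype.card β else 0)) := by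
  have h1 : coef (comp f g) S =
      ∑ y : α → β → Bool, sg (f (fun a => g (y a))) * ∏ a, ∏ b ∈ slice S a, sg (y a b) := by
    unfold coef
    rw [← (Equiv.curry α β Bool).symm.sum_comp]
    apply Finset.sum_congr rfl
    intro y _
    rw [prod_slice]
    rfl
  have h2 : ∀ (T : Finset α) (y : α → β → Bool),
      (∏ a ∈ T, sg (g (y a))) * ∏ a, ∏ b ∈ slice S a, sg (y a b) =
        ∏ a, ((if a ∈ T then sg (g (y a)) else 1) * ∏ b ∈ slice S a, sg (y a b)) := by
    intro T y
    rw [Finset.prod_mul_distrib, Fintype.prod_ite_mem]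
  have h3 : ∀ (T : Finset α) (a : α),
      ∑ w : β → Bool, ((if a ∈ T then sg (g w) else 1) * ∏ b ∈ slice S a, sg (w b)) =
        (if a ∈ T then coef g (slice S a)
              else (if slice S a = ∅ then (2 : ℝ) ^ Fintype.card β else 0)) := by
    intro T a
    split_ifs with ha h0
    · rfl
    · simp [h0]
    · simp [sum_chi, h0]
  rw [h1, Finset.sum_mul]
  have h4 : ∀ y : α → β → Bool,
      sg (f (fun a => g (y a))) * (∏ a, ∏ b ∈ slice S a, sg (y a b)) * (2 : ℝ) ^ Fintype.card α =
        ∑ T : Finset α, coef f T *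
          ∏ a, ((if a ∈ T then sg (g (y a)) else 1) * ∏ b ∈ slice S a, sg (y a b)) := by
    intro y
    have hinv := inversion f (fun a => g (y a))
    calc sg (f (fun a => g (y a))) * (∏ a, ∏ b ∈ slice S a, sg (y a b)) * (2 : ℝ) ^ Fintype.card α
        = ((2 : ℝ) ^ Fintype.card α * sg (f (fun a => g (y a)))) *
            ∏ a, ∏ b ∈ slice S a, sg (y a b) := by ring
      _ = (∑ T : Finset α, coef f T * ∏ a ∈ T, sg (g (y a))) *
            ∏ a, ∏ b ∈ slice S a, sg (y a b) := by rw [hinv]
      _ = ∑ T : Finset α, coef f T *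
          ∏ a, ((if a ∈ T then sg (g (y a)) else 1) * ∏ b ∈ slice S a, sg (y a b)) := by
          rw [Finset.sum_mul]
          apply Finset.sum_congr rfl
          intro T _
          rw [← h2, mul_assoc]
  simp_rw [h4]
  rw [Finset.sum_comm]
  apply Finset.sum_congr rfl
  intro T _
  rw [← Finset.mul_sum]
  congr 1
  rw [← Fintype.prod_sum
    (fun (a : α) (w : β → Bool) => (if a ∈ T then sg (g w) else 1) * ∏ b ∈ slice S a, sg (w b))]
  simp_rw [h3]

/-- Degree is submultiplicative under block composition. -/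
theorem degLE_comp (f : (α → Bool) → Bool) (g : (β → Bool) → Bool) (d₁ d₂ : ℕ)
    (hf : ∀ T : Finset α, d₁ < T.card → coef f T = 0)
    (hg : ∀ U : Finset β, d₂ < U.card → coef g U = 0) :
    ∀ S : Finset (α × β), d₁ * d₂ < S.card → coef (comp f g) S = 0 := by
  intro S hS
  have hpos : (0 : ℝ) < (2 : ℝ) ^ Fintype.card α := by positivity
  have key : coef (comp f g) S * (2 : ℝ) ^ Fintype.card α = 0 := by
    rw [coef_comp]
    apply Finset.sum_eq_zero
    intro T _
    by_cases hT : d₁ < T.card
    · rw [hf T hT, zero_mul]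
    · have hT' : T.card ≤ d₁ := not_lt.mp hT
      suffices h : ∏ a, (if a ∈ T then coef g (slice S a)
              else (if slice S a = ∅ then (2 : ℝ) ^ Fintype.card β else 0)) = 0 by
        rw [h, mul_zero]
      by_contra hne
      rw [Finset.prod_eq_zero_iff] at hne
      have hall : ∀ a, (if a ∈ T then coef g (slice S a)
              else (if slice S a = ∅ then (2 : ℝ) ^ Fintype.card β else 0)) ≠ 0 := by
        intro a h0
        exact hne ⟨a, Finset.mem_univ a, h0⟩
      have hcard : ∀ a, (slice S a).card ≤ if a ∈ T then d₂ else 0 := by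
        intro a
        have := hall a
        split_ifs with ha
        · rw [if_pos ha] at this
          by_contra hlt
          exact this (hg _ (not_le.mp hlt))
        · rw [if_neg ha] at this
          by_cases h0 : slice S a = ∅
          · simp [h0]
          · simp [h0] at this
      have : S.card ≤ d₁ * d₂ := by
        calc S.card = ∑ a, (slice S a).card := card_slice S
          _ ≤ ∑ a, (if a ∈ T then d₂ else 0) := Finset.sum_le_sum fun a _ => hcard a
          _ = T.card * d₂ := by simp
          _ ≤ d₁ * d₂ := Nat.mul_le_mul_right _ hT'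
      omega
  exact (mul_eq_zero.mp key).resolve_right hpos.ne'

/-- A composition of balanced functions is balanced. -/
theorem balanced_comp (f : (α → Bool) → Bool) (g : (β → Bool) → Bool)
    (hf : coef f ∅ = 0) (hg : coef g ∅ = 0) : coef (comp f g) ∅ = 0 := by
  have hpos : (0 : ℝ) < (2 : ℝ) ^ Fintype.card α := by positivity
  have key : coef (comp f g) ∅ * (2 : ℝ) ^ Fintype.card α = 0 := by
    rw [coef_comp]
    apply Finset.sum_eq_zero
    intro T _
    by_cases hT : T = ∅
    · rw [hT, hf, zero_mul]
    · obtain ⟨a, ha⟩ := Finset.nonempty_iff_ne_empty.mpr hT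
      have : ∏ a, (if a ∈ T then coef g (slice (∅ : Finset (α × β)) a)
              else (if slice (∅ : Finset (α × β)) a = ∅ then (2 : ℝ) ^ Fintype.card β else 0)) = 0 := by
        apply Finset.prod_eq_zero (Finset.mem_univ a)
        rw [if_pos ha]
        have : slice (∅ : Finset (α × β)) a = ∅ := by simp [slice]
        rw [this, hg]
      rw [this, mul_zero]
  exact (mul_eq_zero.mp key).resolve_right hpos.ne'

/-- Level-one coefficients of a composition with a balanced inner function. -/
theorem coef_comp_singleton (f : (α → Bool) → Bool) (g : (β → Bool) → Bool)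
    (hg : coef g ∅ = 0) (a₀ : α) (b₀ : β) :
    coef (comp f g) {(a₀, b₀)} / (2 : ℝ) ^ (Fintype.card α * Fintype.card β) =
      (coef f {a₀} / (2 : ℝ) ^ Fintype.card α) * (coef g {b₀} / (2 : ℝ) ^ Fintype.card β) := by
  have hposα : (0 : ℝ) < (2 : ℝ) ^ Fintype.card α := by positivity
  have hposβ : (0 : ℝ) < (2 : ℝ) ^ Fintype.card β := by positivity
  have hslice : ∀ a, slice ({(a₀, b₀)} : Finset (α × β)) a = if a = a₀ then {b₀} else ∅ := by
    intro a
    ext b
    by_cases h : a = a₀
    · subst h; simp [slice]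
    · simp [slice, h]
  have key : coef (comp f g) {(a₀, b₀)} * (2 : ℝ) ^ Fintype.card α =
      coef f {a₀} * (coef g {b₀} * ((2 : ℝ) ^ Fintype.card β) ^ (Fintype.card α - 1)) := by
    rw [coef_comp]
    rw [Finset.sum_eq_single ({a₀} : Finset α)]
    · congr 1
      rw [← Finset.mul_prod_erase Finset.univ _ (Finset.mem_univ a₀)]
      congr 1
      · simp [hslice]
      · rw [Finset.prod_congr rfl (g := fun _ => (2 : ℝ) ^ Fintype.card β)]
        · rw [Finset.prod_const, Finset.card_erase_of_mem (Finset.mem_univ a₀), Finset.card_univ]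
        · intro a ha
          have hne : a ≠ a₀ := Finset.ne_of_mem_erase ha
          simp [hslice, hne]
    · intro T _ hT
      suffices h : ∏ a, (if a ∈ T then coef g (slice ({(a₀, b₀)} : Finset (α × β)) a)
              else (if slice ({(a₀, b₀)} : Finset (α × β)) a = ∅ then (2 : ℝ) ^ Fintype.card β else 0)) = 0 by
        rw [h, mul_zero]
      by_cases h0 : a₀ ∈ T
      · have : ∃ a ∈ T, a ≠ a₀ := by
          by_contra hcon
          apply hT
          ext a
          constructor
          · intro ha
            by_contra hne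
            exact hcon ⟨a, ha, fun h => hne (by simp [h])⟩
          · intro ha
            rw [Finset.mem_singleton] at ha
            rw [ha]; exact h0
        obtain ⟨a, haT, hne⟩ := this
        apply Finset.prod_eq_zero (Finset.mem_univ a)
        rw [if_pos haT, hslice, if_neg hne, hg]
      · apply Finset.prod_eq_zero (Finset.mem_univ a₀)
        rw [if_neg h0, hslice]
        simp
    · intro h; exact absurd (Finset.mem_univ _) h
  have hcard : 1 ≤ Fintype.card α := Fintype.card_pos_iff.mpr ⟨a₀⟩
  have hpow : (2 : ℝ) ^ (Fintype.card α * Fintype.card β) =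
      ((2 : ℝ) ^ Fintype.card β) ^ (Fintype.card α - 1) * (2 : ℝ) ^ Fintype.card β := by
    rw [← pow_succ, ← pow_mul, Nat.sub_add_cancel hcard, mul_comm]
  have hposP : (0 : ℝ) < ((2 : ℝ) ^ Fintype.card β) ^ (Fintype.card α - 1) := by positivity
  rw [hpow]
  field_simp
  linear_combination key

end Comp

section Level

variable {ι : Type*} [Fintype ι] [DecidableEq ι]

/-- The sum of the normalised singleton coefficients. -/
noncomputable def W (f : (ι → Bool) → Bool) : ℝ := ∑ i, coef f {i} / (2 : ℝ) ^ Fintype.card ι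

/-- A constant function has vanishing level-one sum. -/
lemma W_eq_zero_of_const (f : (ι → Bool) → Bool) (hf : ∀ x y, f x = f y) : W f = 0 := by
  unfold W
  apply Finset.sum_eq_zero
  intro i _
  have : coef f {i} = 0 := by
    unfold coef
    have h1 : ∀ x : ι → Bool, sg (f x) * ∏ j ∈ ({i} : Finset ι), sg (x j) =
        sg (f (fun _ => true)) * ∏ j ∈ ({i} : Finset ι), sg (x j) := by
      intro x; rw [hf x (fun _ => true)]
    simp_rw [h1]
    rw [← Finset.mul_sum, sum_chi]
    simp
  rw [this, zero_div]

end Level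

section Relabel

variable {ι κ : Type*} [Fintype ι] [DecidableEq ι] [Fintype κ] [DecidableEq κ]

/-- Relabel the coordinates along an equivalence. -/
def relabel (e : ι ≃ κ) (f : (ι → Bool) → Bool) : (κ → Bool) → Bool :=
  fun y => f (fun i => y (e i))

lemma coef_relabel (e : ι ≃ κ) (f : (ι → Bool) → Bool) (S : Finset κ) :
    coef (relabel e f) S = coef f (S.map e.symm.toEmbedding) := by
  unfold coef relabel
  rw [← (Equiv.arrowCongr e (Equiv.refl Bool)).sum_comp]
  apply Finset.sum_congr rfl
  intro x _
  rw [Finset.prod_map]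
  simp [Equiv.arrowCongr]

lemma W_relabel (e : ι ≃ κ) (f : (ι → Bool) → Bool) : W (relabel e f) = W f := by
  unfold W
  rw [← e.symm.sum_comp (fun i => coef f {i} / (2 : ℝ) ^ Fintype.card ι)]
  apply Finset.sum_congr rfl
  intro k _
  rw [coef_relabel, Finset.map_singleton, Fintype.card_congr e]
  rfl

end Relabel

section CompLevel

variable {α β : Type*} [Fintype α] [DecidableEq α] [Fintype β] [DecidableEq β]

/-- The level-one sum is multiplicative under composition with a balanced inner function. -/
theorem W_comp (f : (α → Bool) → Bool) (g : (β → Bool) → Bool) (hg : coef g ∅ = 0) :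
    W (comp f g) = W f * W g := by
  unfold W
  rw [Fintype.sum_prod_type, Finset.sum_mul_sum]
  apply Finset.sum_congr rfl
  intro a _
  apply Finset.sum_congr rfl
  intro b _
  rw [Fintype.card_prod]
  exact coef_comp_singleton f g hg a b

end CompLevel

/-- Iterating a balanced base function. -/
theorem iterate_base (m : ℕ) (g : (Fin m → Bool) → Bool) (d₀ : ℕ) (hbal : coef g ∅ = 0)
    (hdeg : ∀ S : Finset (Fin m), d₀ < S.card → coef g S = 0) (k : ℕ) :
    ∃ (n : ℕ) (h : (Fin n → Bool) → Bool), coef h ∅ = 0 ∧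
      (∀ S : Finset (Fin n), d₀ ^ (k + 1) < S.card → coef h S = 0) ∧ W h = W g ^ (k + 1) := by
  induction k with
  | zero => exact ⟨m, g, hbal, by simpa using hdeg, by simp⟩
  | succ k ih =>
    obtain ⟨n, h, hb, hd, hw⟩ := ih
    refine ⟨n * m, relabel finProdFinEquiv (comp h g), ?_, ?_, ?_⟩
    · rw [coef_relabel, Finset.map_empty]
      exact balanced_comp h g hb hbal
    · intro S hS
      rw [coef_relabel]
      apply degLE_comp h g (d₀ ^ (k + 1)) d₀ hd hdeg
      rw [Finset.card_map]
      calc d₀ ^ (k + 1) * d₀ = d₀ ^ (k + 1 + 1) := by ring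
        _ < S.card := hS
    · rw [W_relabel, W_comp h g hbal, hw]
      ring

/-- The reduction: a balanced base function whose squared level-one sum exceeds its degree bound
yields, for every `C`, a function as asked for in S0085. -/
theorem unbounded_of_base (m : ℕ) (g : (Fin m → Bool) → Bool) (d₀ : ℕ) (hd₀ : 1 ≤ d₀)
    (hbal : coef g ∅ = 0)
    (hdeg : ∀ S : Finset (Fin m), d₀ < S.card → coef g S = 0)
    (hWpos : 0 < W g) (hW : (d₀ : ℝ) < W g ^ 2) (C : ℝ) :
    ∃ n : ℕ, ∃ f : (Fin n → Bool) → Bool, ∃ d : ℕ,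
      (∃ x y, f x ≠ f y) ∧
      (∀ S : Finset (Fin n), d < S.card →
        ∑ x : Fin n → Bool, ((if f x then (1 : ℝ) else -1) * ∏ i ∈ S, (if x i then (1 : ℝ) else -1)) = 0) ∧
      C * Real.sqrt d <
        ∑ i : Fin n, (∑ x : Fin n → Bool, ((if f x then (1 : ℝ) else -1) * (if x i then (1 : ℝ) else -1))) / 2 ^ n := by
  have hd₀' : (0 : ℝ) < (d₀ : ℝ) := by exact_mod_cast hd₀
  have hsq : 0 < Real.sqrt d₀ := Real.sqrt_pos.mpr hd₀'
  have hlt : Real.sqrt d₀ < W g := (Real.sqrt_lt' hWpos).mpr hW
  have hr : 1 < W g / Real.sqrt d₀ := (one_lt_div hsq).mpr hlt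
  obtain ⟨k, hk⟩ := pow_unbounded_of_one_lt C hr
  have hk' : C < (W g / Real.sqrt d₀) ^ (k + 1) :=
    lt_of_lt_of_le hk (pow_le_pow_right₀ hr.le (Nat.le_succ k))
  obtain ⟨n, h, hb, hd, hw⟩ := iterate_base m g d₀ hbal hdeg k
  have hWh : 0 < W h := by rw [hw]; positivity
  refine ⟨n, h, d₀ ^ (k + 1), ?_, ?_, ?_⟩
  · by_contra hcon
    have hconst : ∀ x y, h x = h y := by
      intro x y
      by_contra hne
      exact hcon ⟨x, y, hne⟩
    have := W_eq_zero_of_const h hconst
    linarith
  · intro S hS
    exact hd S hS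
  · have hsqrt : Real.sqrt ((d₀ ^ (k + 1) : ℕ) : ℝ) = Real.sqrt d₀ ^ (k + 1) := by
      rw [Nat.cast_pow]
      conv_lhs => rw [← Real.sq_sqrt hd₀'.le, ← pow_mul, mul_comm, pow_mul]
      exact Real.sqrt_sq (by positivity)
    have hWform : ∑ i : Fin n, (∑ x : Fin n → Bool,
        ((if h x then (1 : ℝ) else -1) * (if x i then (1 : ℝ) else -1))) / 2 ^ n = W h := by
      unfold W coef
      simp only [Finset.prod_singleton, Fintype.card_fin]
      rfl
    rw [hWform, hsqrt, hw]
    have hpos : 0 < Real.sqrt d₀ ^ (k + 1) := by positivity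
    calc C * Real.sqrt d₀ ^ (k + 1) < (W g / Real.sqrt d₀) ^ (k + 1) * Real.sqrt d₀ ^ (k + 1) :=
          mul_lt_mul_of_pos_right hk' hpos
      _ = W g ^ (k + 1) := by
          rw [div_pow, div_mul_cancel₀ _ hpos.ne']

end Crest.Agent.Helper8
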